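import Vale.Agent.Lib.P361.Abstract

set_option linter.unusedSectionVars false
set_option linter.unusedSimpArgs false

namespace Vale.Agent.Lib.P361

open Matrix Finset
open scoped ComplexOrder

variable {ι : Type*} [Fintype ι] [DecidableEq ι] {Λ : Type*} [Fintype Λ] [DecidableEq Λ]

namespace SpinSys

variable {Sp Sz : Λ → Matrix ι ι ℂ} (hS : SpinSys Sp Sz)
include hS

theorem mT (x : Λ) : ((Sp x)ᴴ)ᵀ = Sp x := by
  have := congrArg transpose (hS.pT x)
  rw [transpose_transpose] at this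
  exact this.symm

theorem bond_hermitian {x y : Λ} (hxy : x ≠ y) : (bond Sp Sz x y).IsHermitian := by
  unfold Matrix.IsHermitian bond
  rw [conjTranspose_add, conjTranspose_smul, conjTranspose_add, conjTranspose_mul,
    conjTranspose_mul, conjTranspose_mul, conjTranspose_conjTranspose, conjTranspose_conjTranspose,
    (hS.zH x).eq, (hS.zH y).eq, hS.zz y x, hS.pm x y hxy, ← hS.pm y x (Ne.symm hxy)]
  have : star (1 / 2 : ℂ) = 1 / 2 := by simp
  rw [this, add_comm ((Sp y)ᴴ * Sp x)]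

theorem bond_transpose {x y : Λ} (hxy : x ≠ y) : (bond Sp Sz x y)ᵀ = bond Sp Sz x y := by
  unfold bond
  rw [transpose_add, transpose_smul, transpose_add, transpose_mul, transpose_mul, transpose_mul,
    hS.mT, hS.mT, hS.pT, hS.pT, hS.zT, hS.zT, hS.zz y x, hS.pm x y hxy, ← hS.pm y x (Ne.symm hxy)]
  rw [add_comm ((Sp y)ᴴ * Sp x)]

theorem Mab_hermitian : (Mab Sz).IsHermitian := by
  unfold Matrix.IsHermitian Mab
  rw [conjTranspose_sum]
  exact Finset.sum_congr rfl fun x _ => (hS.zH x).eq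

theorem Mab_transpose : (Mab Sz)ᵀ = Mab Sz := by
  unfold Mab
  rw [transpose_sum]
  exact Finset.sum_congr rfl fun x _ => hS.zT x

variable {I : Type*} [Fintype I] (ok : I → Prop) [DecidablePred ok] (s t : I → Λ)

theorem Hab_hermitian (hok : ∀ i, ok i → s i ≠ t i) : (Hab Sp Sz ok s t).IsHermitian := by
  unfold Matrix.IsHermitian Hab
  rw [conjTranspose_neg, conjTranspose_sum]
  congr 1
  refine Finset.sum_congr rfl fun i _ => ?_
  split_ifs with h
  · exact (hS.bond_hermitian (hok i h)).eq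
  · simp

theorem Hab_transpose (hok : ∀ i, ok i → s i ≠ t i) :
    (Hab Sp Sz ok s t)ᵀ = Hab Sp Sz ok s t := by
  unfold Hab
  rw [transpose_neg, transpose_sum]
  congr 1
  refine Finset.sum_congr rfl fun i _ => ?_
  split_ifs with h
  · exact hS.bond_transpose (hok i h)
  · simp

theorem K_hermitian (hok : ∀ i, ok i → s i ≠ t i) (h : ℝ) :
    (Hab Sp Sz ok s t - (h : ℂ) • Mab Sz).IsHermitian := by
  unfold Matrix.IsHermitian
  rw [conjTranspose_sub, conjTranspose_smul, (hS.Hab_hermitian ok s t hok).eq,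
    hS.Mab_hermitian.eq]
  simp

theorem K_transpose (hok : ∀ i, ok i → s i ≠ t i) (h : ℂ) :
    (Hab Sp Sz ok s t - h • Mab Sz)ᵀ = Hab Sp Sz ok s t - h • Mab Sz := by
  rw [transpose_sub, transpose_smul, hS.Hab_transpose ok s t hok, hS.Mab_transpose]

/-- symmetry of the exchange correlations under transposition -/
theorem trC_mp_eq (ρ : Matrix ι ι ℂ) (hρ : ρᵀ = ρ) {x y : Λ} (hxy : x ≠ y) :
    trC ρ ((Sp x)ᴴ * Sp y) = trC ρ (Sp x * (Sp y)ᴴ) := by
  rw [← trC_transpose ρ _ hρ, transpose_mul, hS.mT, hS.pT, hS.pm x y hxy]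

/-- the expectation of the double commutator -/
theorem trC_double (ρ : Matrix ι ι ℂ) (hρ : ρᵀ = ρ) (hok : ∀ i, ok i → s i ≠ t i)
    (φ : Λ → ℂ) (h : ℂ) :
    trC ρ (cm (cm (Cop Sp φ) (Hab Sp Sz ok s t - h • Mab Sz)) (Cop Sp φ)ᴴ) =
      (∑ i, if ok i then (Complex.normSq (φ (s i) - φ (t i)) : ℂ) *
          trC ρ (Sz (s i) * Sz (t i) + bond Sp Sz (s i) (t i)) else 0)
      + h * ∑ x, (2 * (Complex.normSq (φ x) : ℂ)) * trC ρ (Sz x) := by
  rw [hS.double_comm, trC_add, trC_neg, trC_sum, trC_smul, trC_sum, ← Finset.sum_neg_distrib]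
  congr 1
  · refine Finset.sum_congr rfl fun i _ => ?_
    rw [trC_ite]
    split_ifs with hi
    · rw [trC_smul, trC_add, trC_sub, trC_smul, trC_smul, trC_smul,
        hS.trC_mp_eq ρ hρ (hok i hi)]
      unfold bond
      rw [trC_add, trC_add, trC_smul, trC_add, hS.trC_mp_eq ρ hρ (hok i hi),
        Complex.normSq_eq_conj_mul_self]
      simp only [map_sub]
      ring
    · simp
  · congr 1
    refine Finset.sum_congr rfl fun x _ => ?_
    rw [trC_smul, Complex.normSq_eq_conj_mul_self]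

theorem trace_rho_nonneg (hok : ∀ i, ok i → s i ≠ t i) (β h : ℝ) :
    0 ≤ (trace (NormedSpace.exp
      (((-β : ℝ) : ℂ) • (Hab Sp Sz ok s t - (h : ℂ) • Mab Sz)))).re := by
  have := trC_exp_nonneg _ 1 (hS.K_hermitian ok s t hok h) (-β) Matrix.PosSemidef.one
  rwa [trC, Matrix.mul_one] at this

/-- single-mode bound -/
theorem mode_bound (hok : ∀ i, ok i → s i ≠ t i) (Sv : ℝ)
    (hP2 : ∀ i, ok i → ((((2 * Sv ^ 2 : ℝ)) : ℂ) • (1 : Matrix ι ι ℂ) -
      (Sz (s i) * Sz (t i) + bond Sp Sz (s i) (t i))).PosSemidef)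
    (β h : ℝ) (hβ : 0 ≤ β) (φ : Λ → ℂ) (q : ℝ) (hq : ∀ x, Complex.normSq (φ x) = q)
    (hq0 : 0 < q)
    (hμ : 0 < (trC (NormedSpace.exp
      (((-β : ℝ) : ℂ) • (Hab Sp Sz ok s t - (h : ℂ) • Mab Sz))) (Mab Sz)).re) :
    2 * q * (trC (NormedSpace.exp
      (((-β : ℝ) : ℂ) • (Hab Sp Sz ok s t - (h : ℂ) • Mab Sz))) (Mab Sz)).re ≤
    (trC (NormedSpace.exp (((-β : ℝ) : ℂ) • (Hab Sp Sz ok s t - (h : ℂ) • Mab Sz)))
      ((Cop Sp φ)ᴴ * Cop Sp φ)).re *
    (Real.exp (β * (Sv ^ 2 * (trace (NormedSpace.exp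
      (((-β : ℝ) : ℂ) • (Hab Sp Sz ok s t - (h : ℂ) • Mab Sz)))).re *
      (∑ i, if ok i then Complex.normSq (φ (s i) - φ (t i)) else 0) /
      (q * (trC (NormedSpace.exp
      (((-β : ℝ) : ℂ) • (Hab Sp Sz ok s t - (h : ℂ) • Mab Sz))) (Mab Sz)).re) + h)) - 1) := by
  set K : Matrix ι ι ℂ := Hab Sp Sz ok s t - (h : ℂ) • Mab Sz with hKdef
  set ρ : Matrix ι ι ℂ := NormedSpace.exp (((-β : ℝ) : ℂ) • K) with hρdef
  set μ : ℝ := (trC ρ (Mab Sz)).re with hμdef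
  set Zρ : ℝ := (trace ρ).re with hZdef
  set G : ℝ := ∑ i, if ok i then Complex.normSq (φ (s i) - φ (t i)) else 0 with hGdef
  set C : Matrix ι ι ℂ := Cop Sp φ with hCdef
  set a : ℝ := (trC ρ (Cᴴ * C)).re with hadef
  have hK : K.IsHermitian := hS.K_hermitian ok s t hok h
  have hρT : ρᵀ = ρ := exp_smul_transpose _ (hS.K_transpose ok s t hok (h : ℂ)) _
  have hroe := roepstorff K C hK β
  dsimp only at hroe
  set b : ℝ := (trace (ρ * (C * Cᴴ))).re with hbdef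
  set dd : ℝ := (trace (ρ * (Cᴴ * (K * C - C * K) - (K * C - C * K) * Cᴴ))).re with hdddef
  have ha' : (trace (ρ * (Cᴴ * C))).re = a := rfl
  rw [ha'] at hroe
  -- b - a
  have hba : b - a = 2 * q * μ := by
    have h1 : trC ρ (C * Cᴴ) - trC ρ (Cᴴ * C) = trC ρ (cm C Cᴴ) := by
      rw [cm, trC_sub]
    have h2 : (trC ρ (cm C Cᴴ)).re = 2 * q * μ := by
      rw [hCdef, hS.cm_C_Cs, trC_sum, Complex.re_sum, hμdef, Mab, trC_sum, Complex.re_sum,
        Finset.mul_sum]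
      refine Finset.sum_congr rfl fun x _ => ?_
      rw [trC_smul, ← Complex.normSq_eq_conj_mul_self, hq x]
      have : (2 * (q : ℂ)) = ((2 * q : ℝ) : ℂ) := by push_cast; ring
      rw [this, Complex.re_ofReal_mul]
    have h3 : b - a = (trC ρ (C * Cᴴ) - trC ρ (Cᴴ * C)).re := by
      rw [Complex.sub_re]; rfl
    rw [h3, h1, h2]
  -- dd
  have hddeq : dd = (∑ i, if ok i then Complex.normSq (φ (s i) - φ (t i)) *
      (trC ρ (Sz (s i) * Sz (t i) + bond Sp Sz (s i) (t i))).re else 0) + h * (2 * q * μ) := by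
    have h1 : Cᴴ * (K * C - C * K) - (K * C - C * K) * Cᴴ = cm (cm C K) Cᴴ := by
      simp only [cm]; noncomm_ring
    have h2 : dd = (trC ρ (cm (cm C K) Cᴴ)).re := by
      rw [hdddef, h1]; rfl
    rw [h2, hCdef, hKdef, hS.trC_double ok s t ρ hρT hok φ (h : ℂ), Complex.add_re,
      Complex.re_sum, Complex.re_ofReal_mul, Complex.re_sum]
    congr 1
    · refine Finset.sum_congr rfl fun i _ => ?_
      split_ifs with hi
      · rw [Complex.re_ofReal_mul]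
      · simp
    · congr 1
      rw [hμdef, Mab, trC_sum, Complex.re_sum, Finset.mul_sum]
      refine Finset.sum_congr rfl fun x _ => ?_
      rw [hq x]
      have : (2 * (q : ℂ)) = ((2 * q : ℝ) : ℂ) := by push_cast; ring
      rw [this, Complex.re_ofReal_mul]
  have hT : ∀ i, ok i → (trC ρ (Sz (s i) * Sz (t i) + bond Sp Sz (s i) (t i))).re ≤
      2 * Sv ^ 2 * Zρ := by
    intro i hi
    have := trC_exp_nonneg K _ hK (-β) (hP2 i hi)
    rw [trC_sub, trC_smul, Complex.sub_re, Complex.re_ofReal_mul] at this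
    have h1 : (trC ρ (1 : Matrix ι ι ℂ)).re = Zρ := by rw [trC, Matrix.mul_one]
    rw [← hρdef, h1] at this
    linarith
  have hG0 : 0 ≤ G := by
    rw [hGdef]
    refine Finset.sum_nonneg fun i _ => ?_
    split_ifs
    · exact Complex.normSq_nonneg _
    · exact le_refl _
  have hddle : dd ≤ 2 * Sv ^ 2 * Zρ * G + h * (2 * q * μ) := by
    rw [hddeq, hGdef, Finset.mul_sum]
    refine add_le_add (Finset.sum_le_sum fun i _ => ?_) (le_refl _)
    split_ifs with hi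
    · have := mul_le_mul_of_nonneg_left (hT i hi) (Complex.normSq_nonneg (φ (s i) - φ (t i)))
      linarith
    · simp
  have ha0 : 0 ≤ a :=
    trC_exp_nonneg K _ hK (-β) (Matrix.posSemidef_conjTranspose_mul_self C)
  have hqμ : 0 < q * μ := mul_pos hq0 hμ
  have hbapos : 0 < b - a := by rw [hba]; linarith
  have hab : a < b := by linarith
  have h1 := hroe hab
  have h2 : β * dd / (b - a) ≤ β * (Sv ^ 2 * Zρ * G / (q * μ) + h) := by
    rw [div_le_iff₀ hbapos, hba]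
    have e : β * (Sv ^ 2 * Zρ * G / (q * μ) + h) * (2 * q * μ) =
        β * (2 * Sv ^ 2 * Zρ * G + h * (2 * q * μ)) := by
      field_simp
    rw [e]
    exact mul_le_mul_of_nonneg_left hddle hβ
  have h3 : a * Real.exp (β * dd / (b - a)) ≤
      a * Real.exp (β * (Sv ^ 2 * Zρ * G / (q * μ) + h)) :=
    mul_le_mul_of_nonneg_left (Real.exp_le_exp.mpr h2) ha0
  linarith

theorem CsC_expand (φ : Λ → ℂ) :
    (Cop Sp φ)ᴴ * Cop Sp φ =
      ∑ x, ∑ y, ((starRingEnd ℂ) (φ x) * φ y) • ((Sp x)ᴴ * Sp y) := by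
  rw [Cop_conjTranspose, Cop, Finset.sum_mul]
  refine Finset.sum_congr rfl fun x _ => ?_
  rw [Finset.mul_sum]
  refine Finset.sum_congr rfl fun y _ => ?_
  rw [Matrix.smul_mul, Matrix.mul_smul, smul_smul]

/-- sum rule -/
theorem sum_rule (hok : ∀ i, ok i → s i ≠ t i) (Sv : ℝ)
    (hP1 : ∀ x, ((((2 * Sv : ℝ)) : ℂ) • (((Sv : ℝ) : ℂ) • (1 : Matrix ι ι ℂ) - Sz x) -
      (Sp x)ᴴ * Sp x).PosSemidef)
    (β h : ℝ) {κ : Type*} [Fintype κ] (Φ : κ → Λ → ℂ)
    (hcomp : ∀ x y, ∑ k, (starRingEnd ℂ) (Φ k x) * Φ k y = if x = y then 1 else 0) :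
    ∑ k, (trC (NormedSpace.exp (((-β : ℝ) : ℂ) • (Hab Sp Sz ok s t - (h : ℂ) • Mab Sz)))
      ((Cop Sp (Φ k))ᴴ * Cop Sp (Φ k))).re ≤
    2 * Sv * (Sv * (Fintype.card Λ : ℝ) * (trace (NormedSpace.exp
      (((-β : ℝ) : ℂ) • (Hab Sp Sz ok s t - (h : ℂ) • Mab Sz)))).re -
      (trC (NormedSpace.exp
      (((-β : ℝ) : ℂ) • (Hab Sp Sz ok s t - (h : ℂ) • Mab Sz))) (Mab Sz)).re) := by
  set K : Matrix ι ι ℂ := Hab Sp Sz ok s t - (h : ℂ) • Mab Sz with hKdef
  set ρ : Matrix ι ι ℂ := NormedSpace.exp (((-β : ℝ) : ℂ) • K) with hρdef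
  have hK : K.IsHermitian := hS.K_hermitian ok s t hok h
  have h1 : ∑ k, trC ρ ((Cop Sp (Φ k))ᴴ * Cop Sp (Φ k)) = ∑ x, trC ρ ((Sp x)ᴴ * Sp x) := by
    simp only [hS.CsC_expand, trC_sum, trC_smul]
    rw [Finset.sum_comm]
    refine Finset.sum_congr rfl fun x _ => ?_
    rw [Finset.sum_comm]
    rw [Finset.sum_eq_single x]
    · rw [← Finset.sum_mul, hcomp x x, if_pos rfl, one_mul]
    · intro y _ hy
      rw [← Finset.sum_mul, hcomp x y, if_neg (Ne.symm hy), zero_mul]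
    · intro hx; exact absurd (Finset.mem_univ _) hx
  have h2 : ∑ k, (trC ρ ((Cop Sp (Φ k))ᴴ * Cop Sp (Φ k))).re =
      ∑ x, (trC ρ ((Sp x)ᴴ * Sp x)).re := by
    rw [← Complex.re_sum, h1, Complex.re_sum]
  rw [h2]
  have h3 : ∀ x, (trC ρ ((Sp x)ᴴ * Sp x)).re ≤
      2 * Sv * (Sv * (trace ρ).re - (trC ρ (Sz x)).re) := by
    intro x
    have := trC_exp_nonneg K _ hK (-β) (hP1 x)
    rw [trC_sub, trC_smul, trC_sub, trC_smul, Complex.sub_re, Complex.re_ofReal_mul,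
      Complex.sub_re, Complex.re_ofReal_mul] at this
    have h1 : (trC ρ (1 : Matrix ι ι ℂ)).re = (trace ρ).re := by rw [trC, Matrix.mul_one]
    rw [← hρdef, h1] at this
    linarith
  calc ∑ x, (trC ρ ((Sp x)ᴴ * Sp x)).re
      ≤ ∑ x, 2 * Sv * (Sv * (trace ρ).re - (trC ρ (Sz x)).re) :=
        Finset.sum_le_sum fun x _ => h3 x
    _ = 2 * Sv * (Sv * (Fintype.card Λ : ℝ) * (trace ρ).re - (trC ρ (Mab Sz)).re) := by
        rw [← Finset.mul_sum, Finset.sum_sub_distrib, Finset.sum_const, Finset.card_univ,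
          Mab, trC_sum, Complex.re_sum]
        simp only [nsmul_eq_mul]
        ring

/-- finite-volume bound: sum of the mode bounds against the sum rule -/
theorem fv_bound (hok : ∀ i, ok i → s i ≠ t i) (Sv : ℝ)
    (hP1 : ∀ x, ((((2 * Sv : ℝ)) : ℂ) • (((Sv : ℝ) : ℂ) • (1 : Matrix ι ι ℂ) - Sz x) -
      (Sp x)ᴴ * Sp x).PosSemidef)
    (hP2 : ∀ i, ok i → ((((2 * Sv ^ 2 : ℝ)) : ℂ) • (1 : Matrix ι ι ℂ) -
      (Sz (s i) * Sz (t i) + bond Sp Sz (s i) (t i))).PosSemidef)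
    (β h : ℝ) (hβ : 0 < β) (hh : 0 < h) {κ : Type*} [Fintype κ] (Φ : κ → Λ → ℂ)
    (hcomp : ∀ x y, ∑ k, (starRingEnd ℂ) (Φ k x) * Φ k y = if x = y then 1 else 0)
    (q : ℝ) (hq : ∀ k x, Complex.normSq (Φ k x) = q) (hq0 : 0 < q)
    (hμ : 0 < (trC (NormedSpace.exp
      (((-β : ℝ) : ℂ) • (Hab Sp Sz ok s t - (h : ℂ) • Mab Sz))) (Mab Sz)).re) :
    ∑ k, 2 * q * (trC (NormedSpace.exp
      (((-β : ℝ) : ℂ) • (Hab Sp Sz ok s t - (h : ℂ) • Mab Sz))) (Mab Sz)).re /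
      (Real.exp (β * (Sv ^ 2 * (trace (NormedSpace.exp
      (((-β : ℝ) : ℂ) • (Hab Sp Sz ok s t - (h : ℂ) • Mab Sz)))).re *
      (∑ i, if ok i then Complex.normSq (Φ k (s i) - Φ k (t i)) else 0) /
      (q * (trC (NormedSpace.exp
      (((-β : ℝ) : ℂ) • (Hab Sp Sz ok s t - (h : ℂ) • Mab Sz))) (Mab Sz)).re) + h)) - 1) ≤
    2 * Sv * (Sv * (Fintype.card Λ : ℝ) * (trace (NormedSpace.exp
      (((-β : ℝ) : ℂ) • (Hab Sp Sz ok s t - (h : ℂ) • Mab Sz)))).re -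
      (trC (NormedSpace.exp
      (((-β : ℝ) : ℂ) • (Hab Sp Sz ok s t - (h : ℂ) • Mab Sz))) (Mab Sz)).re) := by
  refine le_trans (Finset.sum_le_sum fun k _ => ?_)
    (hS.sum_rule ok s t hok Sv hP1 β h Φ hcomp)
  have hZ := hS.trace_rho_nonneg ok s t hok β h
  have hG0 : 0 ≤ ∑ i, if ok i then Complex.normSq (Φ k (s i) - Φ k (t i)) else 0 := by
    refine Finset.sum_nonneg fun i _ => ?_
    split_ifs
    · exact Complex.normSq_nonneg _
    · exact le_refl _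
  have hpos : 0 < Real.exp (β * (Sv ^ 2 * (trace (NormedSpace.exp
      (((-β : ℝ) : ℂ) • (Hab Sp Sz ok s t - (h : ℂ) • Mab Sz)))).re *
      (∑ i, if ok i then Complex.normSq (Φ k (s i) - Φ k (t i)) else 0) /
      (q * (trC (NormedSpace.exp
      (((-β : ℝ) : ℂ) • (Hab Sp Sz ok s t - (h : ℂ) • Mab Sz))) (Mab Sz)).re) + h)) - 1 := by
    have : 0 < β * (Sv ^ 2 * (trace (NormedSpace.exp
      (((-β : ℝ) : ℂ) • (Hab Sp Sz ok s t - (h : ℂ) • Mab Sz)))).re *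
      (∑ i, if ok i then Complex.normSq (Φ k (s i) - Φ k (t i)) else 0) /
      (q * (trC (NormedSpace.exp
      (((-β : ℝ) : ℂ) • (Hab Sp Sz ok s t - (h : ℂ) • Mab Sz))) (Mab Sz)).re) + h) := by
      apply mul_pos hβ
      have : 0 ≤ Sv ^ 2 * (trace (NormedSpace.exp
        (((-β : ℝ) : ℂ) • (Hab Sp Sz ok s t - (h : ℂ) • Mab Sz)))).re *
        (∑ i, if ok i then Complex.normSq (Φ k (s i) - Φ k (t i)) else 0) /
        (q * (trC (NormedSpace.exp
        (((-β : ℝ) : ℂ) • (Hab Sp Sz ok s t - (h : ℂ) • Mab Sz))) (Mab Sz)).re) :=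
        div_nonneg (mul_nonneg (mul_nonneg (sq_nonneg _) hZ) hG0) (mul_pos hq0 hμ).le
      linarith
    have := Real.add_one_lt_exp this.ne'
    linarith
  rw [div_le_iff₀ hpos]
  exact hS.mode_bound ok s t hok Sv hP2 β h hβ.le (Φ k) q (hq k) hq0 hμ

end SpinSys

end Vale.Agent.Lib.P361
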