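import Vale.Agent.Lib.P361.Defs

namespace Vale.Agent.Lib.P361

open Matrix Finset

variable {Λ : Type*} [Fintype Λ] [DecidableEq Λ] {d : ℕ}

theorem matrix_ext_mulVec {n : Type*} [Fintype n] [DecidableEq n] {A B : Matrix n n ℂ}
    (h : ∀ ψ : n → ℂ, A *ᵥ ψ = B *ᵥ ψ) : A = B := by
  ext i j
  have := congrFun (h (Pi.single j 1)) i
  simpa [Matrix.mulVec_single_one] using this

theorem siteOp_mulVec (x : Λ) (a : Matrix (Fin d) (Fin d) ℂ) (ψ : (Λ → Fin d) → ℂ)
    (σ : Λ → Fin d) :
    (siteOp x a *ᵥ ψ) σ = ∑ k, a (σ x) k * ψ (Function.update σ x k) := by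
  have h1 : ∀ k, a (σ x) k * ψ (Function.update σ x k) =
      ∑ τ : Λ → Fin d, if τ = Function.update σ x k then a (σ x) k * ψ τ else 0 := by
    intro k
    rw [Finset.sum_ite_eq']
    simp
  simp only [h1]
  rw [Finset.sum_comm]
  simp only [Matrix.mulVec, dotProduct]
  refine Finset.sum_congr rfl fun τ _ => ?_
  simp only [siteOp]
  by_cases hP : ∀ y, y ≠ x → σ y = τ y
  · rw [if_pos hP]
    have hτ : τ = Function.update σ x (τ x) := by
      funext y
      by_cases hy : y = x
      · subst hy; simp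
      · rw [Function.update_of_ne hy]; exact (hP y hy).symm
    rw [Finset.sum_eq_single (τ x)]
    · rw [if_pos hτ]
    · intro k _ hk
      rw [if_neg]
      intro hcon
      apply hk
      have := congrFun hcon x
      simp at this
      exact this.symm
    · intro h; exact absurd (Finset.mem_univ _) h
  · rw [if_neg hP, zero_mul]
    symm
    apply Finset.sum_eq_zero
    intro k _
    rw [if_neg]
    intro hcon
    apply hP
    intro y hy
    rw [hcon, Function.update_of_ne hy]

theorem siteOp_mul (x : Λ) (a b : Matrix (Fin d) (Fin d) ℂ) :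
    siteOp x a * siteOp x b = siteOp x (a * b) := by
  apply matrix_ext_mulVec
  intro ψ
  funext σ
  rw [← Matrix.mulVec_mulVec, siteOp_mulVec, siteOp_mulVec]
  simp only [siteOp_mulVec, Function.update_self, Function.update_idem, Matrix.mul_apply,
    Finset.mul_sum, Finset.sum_mul]
  rw [Finset.sum_comm]
  refine Finset.sum_congr rfl fun k _ => Finset.sum_congr rfl fun l _ => ?_
  ring

theorem siteOp_comm {x y : Λ} (hxy : x ≠ y) (a b : Matrix (Fin d) (Fin d) ℂ) :
    siteOp x a * siteOp y b = siteOp y b * siteOp x a := by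
  apply matrix_ext_mulVec
  intro ψ
  funext σ
  rw [← Matrix.mulVec_mulVec, ← Matrix.mulVec_mulVec, siteOp_mulVec, siteOp_mulVec]
  simp only [siteOp_mulVec, Function.update_of_ne hxy, Function.update_of_ne hxy.symm,
    Finset.mul_sum]
  rw [Finset.sum_comm]
  refine Finset.sum_congr rfl fun k _ => Finset.sum_congr rfl fun l _ => ?_
  rw [Function.update_comm hxy]
  ring

theorem siteOp_add (x : Λ) (a b : Matrix (Fin d) (Fin d) ℂ) :
    siteOp x (a + b) = siteOp x a + siteOp x b := by
  ext σ τ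
  simp only [siteOp, Matrix.add_apply]
  split_ifs <;> simp

theorem siteOp_sub (x : Λ) (a b : Matrix (Fin d) (Fin d) ℂ) :
    siteOp x (a - b) = siteOp x a - siteOp x b := by
  ext σ τ
  simp only [siteOp, Matrix.sub_apply]
  split_ifs <;> simp

theorem siteOp_smul (x : Λ) (c : ℂ) (a : Matrix (Fin d) (Fin d) ℂ) :
    siteOp x (c • a) = c • siteOp x a := by
  ext σ τ
  simp only [siteOp, Matrix.smul_apply]
  split_ifs <;> simp

theorem siteOp_zero (x : Λ) : siteOp x (0 : Matrix (Fin d) (Fin d) ℂ) = 0 := by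
  ext σ τ
  simp [siteOp]

theorem siteOp_neg (x : Λ) (a : Matrix (Fin d) (Fin d) ℂ) :
    siteOp x (-a) = -siteOp x a := by
  ext σ τ
  simp only [siteOp, Matrix.neg_apply]
  split_ifs <;> simp

theorem siteOp_diagonal (x : Λ) (v : Fin d → ℂ) :
    siteOp x (diagonal v) = diagonal fun σ : Λ → Fin d => v (σ x) := by
  ext σ τ
  simp only [siteOp]
  by_cases hστ : σ = τ
  · subst hστ
    simp
  · rw [diagonal_apply_ne _ hστ]
    split_ifs with hP
    · have hx : σ x ≠ τ x := by
        intro hx
        apply hστ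
        funext y
        by_cases hy : y = x
        · subst hy; exact hx
        · exact hP y hy
      rw [diagonal_apply_ne _ hx]
    · rfl

theorem siteOp_one (x : Λ) : siteOp x (1 : Matrix (Fin d) (Fin d) ℂ) = 1 := by
  rw [← diagonal_one, siteOp_diagonal, ← diagonal_one]

theorem siteOp_conjTranspose (x : Λ) (a : Matrix (Fin d) (Fin d) ℂ) :
    (siteOp x a)ᴴ = siteOp x aᴴ := by
  ext σ τ
  simp only [siteOp, conjTranspose_apply]
  by_cases hP : ∀ y, y ≠ x → σ y = τ y
  · have hP' : ∀ y, y ≠ x → τ y = σ y := fun y hy => (hP y hy).symm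
    rw [if_pos hP, if_pos hP']
  · have hP' : ¬ ∀ y, y ≠ x → τ y = σ y := fun h => hP fun y hy => (h y hy).symm
    rw [if_neg hP, if_neg hP', star_zero]

theorem siteOp_transpose (x : Λ) (a : Matrix (Fin d) (Fin d) ℂ) :
    (siteOp x a)ᵀ = siteOp x aᵀ := by
  ext σ τ
  simp only [siteOp, transpose_apply]
  by_cases hP : ∀ y, y ≠ x → σ y = τ y
  · have hP' : ∀ y, y ≠ x → τ y = σ y := fun y hy => (hP y hy).symm
    rw [if_pos hP, if_pos hP']
  · have hP' : ¬ ∀ y, y ≠ x → τ y = σ y := fun h => hP fun y hy => (h y hy).symm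
    rw [if_neg hP, if_neg hP']

end Vale.Agent.Lib.P361
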