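import Vale.Agent.Lib.P361.Defs

set_option linter.unusedSectionVars false
set_option linter.unusedSimpArgs false

namespace Vale.Agent.Lib.P361

open Matrix Finset

/-- orthogonality of the characters of `ℤ/L` -/
theorem sum_exp_fin (L : ℕ) (hL : 0 < L) (n : ℤ) (hn : |n| < (L : ℤ)) :
    ∑ a : Fin L, Complex.exp (2 * Real.pi * Complex.I * ((a : ℕ) : ℂ) * (n : ℂ) / (L : ℂ)) =
      if n = 0 then (L : ℂ) else 0 := by
  have hL0 : (L : ℂ) ≠ 0 := by exact_mod_cast hL.ne'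
  by_cases h0 : n = 0
  · subst h0
    simp
  · rw [if_neg h0]
    set ζ : ℂ := Complex.exp (2 * Real.pi * Complex.I * (n : ℂ) / (L : ℂ)) with hζ
    have h1 : ∀ a : Fin L, Complex.exp (2 * Real.pi * Complex.I * ((a : ℕ) : ℂ) * (n : ℂ) / (L : ℂ))
        = ζ ^ (a : ℕ) := by
      intro a
      rw [hζ, ← Complex.exp_nat_mul]
      congr 1
      ring
    simp only [h1]
    rw [Fin.sum_univ_eq_sum_range (fun a => ζ ^ a) L]
    have hζ1 : ζ ≠ 1 := by
      intro hcon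
      rw [hζ, Complex.exp_eq_one_iff] at hcon
      obtain ⟨m, hm⟩ := hcon
      have hpi : (2 * (Real.pi : ℂ) * Complex.I) ≠ 0 := by
        simp [Real.pi_ne_zero, Complex.I_ne_zero]
      have h2 : (n : ℂ) = (m : ℂ) * (L : ℂ) := by
        field_simp at hm
        rw [hm]; ring
      have h4 : n = m * (L : ℤ) := by exact_mod_cast h2
      have h5 : m = 0 := by
        by_contra hm0
        have : (L : ℤ) ≤ |m * (L : ℤ)| := by
          rw [abs_mul]
          have h6 : (1 : ℤ) ≤ |m| := Int.one_le_abs hm0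
          have h7 : |(L : ℤ)| = (L : ℤ) := abs_of_nonneg (by positivity)
          rw [h7]
          nlinarith [abs_nonneg m]
        rw [← h4] at this
        omega
      rw [h5] at h4
      simp at h4
      exact h0 h4
    rw [geom_sum_eq hζ1]
    have hζL : ζ ^ L = 1 := by
      rw [hζ, ← Complex.exp_nat_mul]
      have : (L : ℂ) * (2 * Real.pi * Complex.I * (n : ℂ) / (L : ℂ)) =
          (n : ℂ) * (2 * Real.pi * Complex.I) := by
        field_simp
      rw [this, Complex.exp_int_mul_two_pi_mul_I]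
    rw [hζL, sub_self, zero_div]

/-- normalised plane waves on the box, indexed by `k` in the box -/
noncomputable def pw (N : ℕ) (k x : Site N) : ℂ :=
  (((Real.sqrt ((2 * (N : ℝ) + 1) ^ 3))⁻¹ : ℝ) : ℂ) *
    Complex.exp (2 * Real.pi * Complex.I * (∑ j, ((k j : ℕ) : ℂ) * ((x j : ℕ) : ℂ)) /
      ((2 * N + 1 : ℕ) : ℂ))

theorem pw_phase_eq (N : ℕ) (k x : Site N) :
    2 * Real.pi * Complex.I * (∑ j, ((k j : ℕ) : ℂ) * ((x j : ℕ) : ℂ)) / ((2 * N + 1 : ℕ) : ℂ) =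
      ((2 * Real.pi * (∑ j, ((k j : ℕ) : ℝ) * ((x j : ℕ) : ℝ)) / (2 * (N : ℝ) + 1) : ℝ) : ℂ) *
        Complex.I := by
  push_cast
  ring

theorem sqrt_vol_sq (N : ℕ) :
    (Real.sqrt ((2 * (N : ℝ) + 1) ^ 3))⁻¹ * (Real.sqrt ((2 * (N : ℝ) + 1) ^ 3))⁻¹ =
      1 / (2 * (N : ℝ) + 1) ^ 3 := by
  rw [← mul_inv, Real.mul_self_sqrt (by positivity), one_div]

theorem pw_normSq (N : ℕ) (k x : Site N) :
    Complex.normSq (pw N k x) = 1 / (2 * (N : ℝ) + 1) ^ 3 := by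
  unfold pw
  rw [pw_phase_eq, Complex.normSq_mul, Complex.normSq_ofReal, Complex.normSq_eq_norm_sq,
    Complex.norm_exp_ofReal_mul_I, one_pow, mul_one, sqrt_vol_sq]

theorem pw_complete (N : ℕ) (x y : Site N) :
    ∑ k : Site N, (starRingEnd ℂ) (pw N k x) * pw N k y = if x = y then 1 else 0 := by
  have hL : (0 : ℝ) < 2 * (N : ℝ) + 1 := by positivity
  have hterm : ∀ k : Site N, (starRingEnd ℂ) (pw N k x) * pw N k y =
      ((1 / (2 * (N : ℝ) + 1) ^ 3 : ℝ) : ℂ) *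
        ∏ j, Complex.exp (2 * Real.pi * Complex.I * ((k j : ℕ) : ℂ) *
          ((((y j : ℕ) : ℤ) - ((x j : ℕ) : ℤ) : ℤ) : ℂ) / ((2 * N + 1 : ℕ) : ℂ)) := by
    intro k
    unfold pw
    rw [map_mul, Complex.conj_ofReal, ← Complex.exp_conj, ← Complex.exp_sum, ← sqrt_vol_sq]
    have e1 : (starRingEnd ℂ) (2 * Real.pi * Complex.I *
        (∑ j, ((k j : ℕ) : ℂ) * ((x j : ℕ) : ℂ)) / ((2 * N + 1 : ℕ) : ℂ)) =
        -(2 * Real.pi * Complex.I * (∑ j, ((k j : ℕ) : ℂ) * ((x j : ℕ) : ℂ)) /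
          ((2 * N + 1 : ℕ) : ℂ)) := by
      rw [pw_phase_eq, map_mul, Complex.conj_ofReal, Complex.conj_I]
      ring
    rw [e1]
    have e2 : ∀ a b c d : ℂ, a * Complex.exp b * (c * Complex.exp d) =
        (a * c) * Complex.exp (b + d) := by
      intro a b c d
      rw [Complex.exp_add]; ring
    rw [e2]
    congr 1
    · push_cast; ring
    · congr 1
      have e3 : (∑ i, 2 * (Real.pi : ℂ) * Complex.I * ((k i : ℕ) : ℂ) *
          ((((y i : ℕ) : ℤ) - ((x i : ℕ) : ℤ) : ℤ) : ℂ)) =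
          2 * Real.pi * Complex.I * (∑ j, ((k j : ℕ) : ℂ) * ((y j : ℕ) : ℂ)) -
          2 * Real.pi * Complex.I * (∑ j, ((k j : ℕ) : ℂ) * ((x j : ℕ) : ℂ)) := by
        rw [Finset.mul_sum, Finset.mul_sum, ← Finset.sum_sub_distrib]
        refine Finset.sum_congr rfl fun j _ => ?_
        push_cast
        ring
      rw [← Finset.sum_div, e3]
      ring
  simp only [hterm]
  rw [← Finset.mul_sum]
  have hprod : ∑ k : Site N, ∏ j, Complex.exp (2 * Real.pi * Complex.I * ((k j : ℕ) : ℂ) *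
      ((((y j : ℕ) : ℤ) - ((x j : ℕ) : ℤ) : ℤ) : ℂ) / ((2 * N + 1 : ℕ) : ℂ)) =
      ∏ j : Fin 3, ∑ a : Fin (2 * N + 1), Complex.exp (2 * Real.pi * Complex.I * ((a : ℕ) : ℂ) *
      ((((y j : ℕ) : ℤ) - ((x j : ℕ) : ℤ) : ℤ) : ℂ) / ((2 * N + 1 : ℕ) : ℂ)) := by
    rw [Finset.prod_univ_sum, Fintype.piFinset_univ]
  rw [hprod]
  have h1d : ∀ j : Fin 3, ∑ a : Fin (2 * N + 1), Complex.exp (2 * Real.pi * Complex.I *
      ((a : ℕ) : ℂ) * ((((y j : ℕ) : ℤ) - ((x j : ℕ) : ℤ) : ℤ) : ℂ) / ((2 * N + 1 : ℕ) : ℂ)) =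
      if x j = y j then ((2 * N + 1 : ℕ) : ℂ) else 0 := by
    intro j
    rw [sum_exp_fin (2 * N + 1) (by omega)]
    · by_cases hxy : x j = y j
      · rw [if_pos hxy, if_pos]
        rw [hxy]; simp
      · rw [if_neg hxy, if_neg]
        intro h
        apply hxy
        apply Fin.ext
        omega
    · have h1 := (x j).isLt
      have h2 := (y j).isLt
      rw [abs_lt]
      constructor <;> push_cast <;> omega
  simp only [h1d]
  by_cases hxy : x = y
  · subst hxy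
    simp only [if_true, Finset.prod_const, Finset.card_univ, Fintype.card_fin]
    have hLc : (2 * (N : ℂ) + 1) ≠ 0 := by
      have : ((2 * N + 1 : ℕ) : ℂ) ≠ 0 := by exact_mod_cast (by omega : 2 * N + 1 ≠ 0)
      push_cast at this
      exact this
    push_cast
    field_simp
  · rw [if_neg hxy]
    have : ∃ j, x j ≠ y j := by
      by_contra hcon
      exact hxy (funext fun j => by_contra fun h => hcon ⟨j, h⟩)
    obtain ⟨j, hj⟩ := this
    rw [Finset.prod_eq_zero (Finset.mem_univ j) (by rw [if_neg hj]), mul_zero]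

theorem normSq_one_sub_exp (θ : ℝ) :
    Complex.normSq (1 - Complex.exp ((θ : ℂ) * Complex.I)) = 2 - 2 * Real.cos θ := by
  rw [Complex.normSq_apply, Complex.sub_re, Complex.sub_im, Complex.exp_ofReal_mul_I_re,
    Complex.exp_ofReal_mul_I_im, Complex.one_re, Complex.one_im]
  have := Real.sin_sq_add_cos_sq θ
  nlinarith

theorem pw_nbr (N : ℕ) (k x : Site N) (j : Fin 3) (h : (x j : ℕ) + 1 < 2 * N + 1) :
    pw N k (nbr x j) = pw N k x *
      Complex.exp (((2 * Real.pi * ((k j : ℕ) : ℝ) / (2 * (N : ℝ) + 1) : ℝ) : ℂ) * Complex.I) := by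
  have hn : nbr x j = Function.update x j ⟨(x j : ℕ) + 1, h⟩ := dif_pos h
  have hsum : ∑ j', ((k j' : ℕ) : ℂ) * (((nbr x j) j' : ℕ) : ℂ) =
      (∑ j', ((k j' : ℕ) : ℂ) * ((x j' : ℕ) : ℂ)) + ((k j : ℕ) : ℂ) := by
    rw [hn]
    have hpt : ∀ j', ((k j' : ℕ) : ℂ) *
        (((Function.update x j (⟨(x j : ℕ) + 1, h⟩ : Fin (2 * N + 1))) j' : ℕ) : ℂ) =
        ((k j' : ℕ) : ℂ) * ((x j' : ℕ) : ℂ) + (if j' = j then ((k j : ℕ) : ℂ) else 0) := by
      intro j'
      by_cases hj : j' = j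
      · subst hj
        rw [Function.update_self, if_pos rfl]
        push_cast
        ring
      · rw [Function.update_of_ne hj, if_neg hj, add_zero]
    simp only [hpt]
    rw [Finset.sum_add_distrib, Finset.sum_ite_eq']
    simp
  unfold pw
  rw [hsum]
  have e : 2 * (Real.pi : ℂ) * Complex.I *
      ((∑ j', ((k j' : ℕ) : ℂ) * ((x j' : ℕ) : ℂ)) + ((k j : ℕ) : ℂ)) / ((2 * N + 1 : ℕ) : ℂ) =
      2 * (Real.pi : ℂ) * Complex.I * (∑ j', ((k j' : ℕ) : ℂ) * ((x j' : ℕ) : ℂ)) /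
        ((2 * N + 1 : ℕ) : ℂ) +
      ((2 * Real.pi * ((k j : ℕ) : ℝ) / (2 * (N : ℝ) + 1) : ℝ) : ℂ) * Complex.I := by
    push_cast
    ring
  rw [e, Complex.exp_add]
  ring

theorem pw_grad (N : ℕ) (k x : Site N) (j : Fin 3) (h : (x j : ℕ) + 1 < 2 * N + 1) :
    Complex.normSq (pw N k x - pw N k (nbr x j)) =
      1 / (2 * (N : ℝ) + 1) ^ 3 *
        (2 - 2 * Real.cos (2 * Real.pi * ((k j : ℕ) : ℝ) / (2 * (N : ℝ) + 1))) := by
  rw [pw_nbr N k x j h]
  have : pw N k x - pw N k x *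
      Complex.exp (((2 * Real.pi * ((k j : ℕ) : ℝ) / (2 * (N : ℝ) + 1) : ℝ) : ℂ) * Complex.I) =
      pw N k x * (1 - Complex.exp
        (((2 * Real.pi * ((k j : ℕ) : ℝ) / (2 * (N : ℝ) + 1) : ℝ) : ℂ) * Complex.I)) := by
    ring
  rw [this, Complex.normSq_mul, pw_normSq, normSq_one_sub_exp]

end Vale.Agent.Lib.P361
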