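import Vale.Agent.Lib.P361.Spin
import Vale.Agent.Lib.P361.Embed
import Vale.Agent.Lib.P361.Abstract2
import Vale.Agent.Lib.P361.PlaneWave

set_option linter.unusedSectionVars false
set_option linter.unusedSimpArgs false

namespace Vale.Agent.Lib.P361

open Matrix Finset
open scoped ComplexOrder

variable {Λ : Type*} [Fintype Λ] [DecidableEq Λ] (d : ℕ)

/-- raising operators of the concrete spin system -/
noncomputable def cSp (x : Λ) : Matrix (Λ → Fin d) (Λ → Fin d) ℂ := siteOp x (spinPlus d)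

/-- `S^3` operators of the concrete spin system -/
noncomputable def cSz (x : Λ) : Matrix (Λ → Fin d) (Λ → Fin d) ℂ := siteOp x (spinZ d)

theorem cSp_conjTranspose (x : Λ) : (cSp d x)ᴴ = siteOp x (spinPlus d)ᴴ := by
  rw [cSp, siteOp_conjTranspose]

/-- the concrete spin system satisfies the abstract relations -/
theorem spinSys : SpinSys (cSp (Λ := Λ) d) (cSz (Λ := Λ) d) where
  zH := fun x => by
    unfold Matrix.IsHermitian cSz
    rw [siteOp_conjTranspose, (spinZ_hermitian d).eq]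
  zT := fun x => by
    unfold cSz
    rw [siteOp_transpose, spinZ_transpose]
  pT := fun x => by
    unfold cSp
    rw [siteOp_transpose, siteOp_conjTranspose, spinPlus_transpose]
  pm := fun x y hxy => by
    rw [cSp_conjTranspose]
    exact siteOp_comm hxy _ _
  pp := fun x y => by
    by_cases hxy : x = y
    · subst hxy; rfl
    · exact siteOp_comm hxy _ _
  zz := fun x y => by
    by_cases hxy : x = y
    · subst hxy; rfl
    · exact siteOp_comm hxy _ _
  zp := fun x y hxy => siteOp_comm hxy _ _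
  zp' := fun x => by
    unfold cSp cSz
    rw [siteOp_mul, siteOp_mul, ← siteOp_sub, spin_comm_zp]
  pm' := fun x => by
    rw [cSp_conjTranspose]
    unfold cSp cSz
    rw [siteOp_mul, siteOp_mul, ← siteOp_sub, spin_comm_pm, siteOp_smul]

theorem cP1 (x : Λ) :
    ((((2 * Sv d : ℝ)) : ℂ) • (((Sv d : ℝ) : ℂ) • (1 : Matrix (Λ → Fin d) (Λ → Fin d) ℂ) - cSz d x) -
      (cSp d x)ᴴ * cSp d x).PosSemidef := by
  have h : ((((2 * Sv d : ℝ)) : ℂ) • (((Sv d : ℝ) : ℂ) • (1 : Matrix (Λ → Fin d) (Λ → Fin d) ℂ)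
      - cSz d x) - (cSp d x)ᴴ * cSp d x) =
      siteOp x (((2 * Sv d : ℝ) : ℂ) • (((Sv d : ℝ) : ℂ) • (1 : Matrix (Fin d) (Fin d) ℂ) - spinZ d) -
      (spinPlus d)ᴴ * spinPlus d) := by
    rw [cSp_conjTranspose]
    unfold cSp cSz
    rw [siteOp_sub, siteOp_smul, siteOp_sub, siteOp_smul, siteOp_one, siteOp_mul]
  rw [h, spin_P1, siteOp_diagonal]
  apply Matrix.PosSemidef.diagonal
  intro σ
  simp only [Pi.zero_apply]
  rw [Complex.zero_le_real]
  rcases Nat.eq_zero_or_pos ((σ x : Fin d) : ℕ) with h0 | h1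
  · rw [h0]; simp
  · have : (1 : ℝ) ≤ (((σ x : Fin d) : ℕ) : ℝ) := by exact_mod_cast h1
    exact mul_nonneg (by linarith) (by linarith)

theorem siteOp_pair_mul {x y : Λ} (hxy : x ≠ y) (a b a' b' : Matrix (Fin d) (Fin d) ℂ) :
    (siteOp x a * siteOp y b) * (siteOp x a' * siteOp y b') =
      siteOp x (a * a') * siteOp y (b * b') := by
  calc (siteOp x a * siteOp y b) * (siteOp x a' * siteOp y b')
      = siteOp x a * (siteOp y b * siteOp x a') * siteOp y b' := by
        simp only [Matrix.mul_assoc]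
    _ = siteOp x a * (siteOp x a' * siteOp y b) * siteOp y b' := by
        rw [siteOp_comm (Ne.symm hxy) b a']
    _ = (siteOp x a * siteOp x a') * (siteOp y b * siteOp y b') := by
        simp only [Matrix.mul_assoc]
    _ = siteOp x (a * a') * siteOp y (b * b') := by rw [siteOp_mul, siteOp_mul]

/-- `S^2 - S_x · S_y = (1/2) W^* W` -/
theorem bond_eq_WW {x y : Λ} (hxy : x ≠ y) :
    ((Sv d ^ 2 : ℝ) : ℂ) • (1 : Matrix (Λ → Fin d) (Λ → Fin d) ℂ) - bond (cSp d) (cSz d) x y =
      (1 / 2 : ℝ) • ((siteOp x (uM d) * siteOp y (gM d) - siteOp x (gM d) * siteOp y (uM d))ᴴ *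
        (siteOp x (uM d) * siteOp y (gM d) - siteOp x (gM d) * siteOp y (uM d))) := by
  have hW : (siteOp x (uM d) * siteOp y (gM d) - siteOp x (gM d) * siteOp y (uM d))ᴴ =
      siteOp x (uM d)ᴴ * siteOp y (gM d) - siteOp x (gM d) * siteOp y (uM d)ᴴ := by
    rw [conjTranspose_sub, conjTranspose_mul, conjTranspose_mul, siteOp_conjTranspose,
      siteOp_conjTranspose, siteOp_conjTranspose, siteOp_conjTranspose, gM_conjTranspose,
      siteOp_comm (Ne.symm hxy), siteOp_comm (Ne.symm hxy)]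
  rw [hW, Matrix.sub_mul, Matrix.mul_sub, Matrix.mul_sub, siteOp_pair_mul d hxy,
    siteOp_pair_mul d hxy, siteOp_pair_mul d hxy, siteOp_pair_mul d hxy, uMH_mul_uM, gM_mul_gM,
    uMH_mul_gM, gM_mul_uM]
  unfold bond
  simp only [cSp_conjTranspose]
  unfold cSp cSz
  simp only [siteOp_add, siteOp_sub, siteOp_smul, siteOp_one, Matrix.add_mul, Matrix.mul_add,
    Matrix.sub_mul, Matrix.mul_sub, Matrix.smul_mul, Matrix.mul_smul, Matrix.one_mul,
    Matrix.mul_one, smul_smul]
  rw [← Complex.coe_smul]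
  push_cast
  module

theorem cP2 {x y : Λ} (hxy : x ≠ y) :
    ((((2 * Sv d ^ 2 : ℝ)) : ℂ) • (1 : Matrix (Λ → Fin d) (Λ → Fin d) ℂ) -
      (cSz d x * cSz d y + bond (cSp d) (cSz d) x y)).PosSemidef := by
  have h1 : (((2 * Sv d ^ 2 : ℝ)) : ℂ) • (1 : Matrix (Λ → Fin d) (Λ → Fin d) ℂ) -
      (cSz d x * cSz d y + bond (cSp d) (cSz d) x y) =
      (((Sv d ^ 2 : ℝ) : ℂ) • (1 : Matrix (Λ → Fin d) (Λ → Fin d) ℂ) - bond (cSp d) (cSz d) x y) +
      (((Sv d ^ 2 : ℝ) : ℂ) • (1 : Matrix (Λ → Fin d) (Λ → Fin d) ℂ) - cSz d x * cSz d y) := by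
    push_cast
    module
  rw [h1, bond_eq_WW d hxy]
  apply Matrix.PosSemidef.add
  · exact (Matrix.posSemidef_conjTranspose_mul_self _).smul (by norm_num : (0 : ℝ) ≤ 1 / 2)
  · unfold cSz spinZ
    rw [siteOp_diagonal, siteOp_diagonal, diagonal_mul_diagonal, Matrix.smul_one_eq_diagonal,
      Matrix.diagonal_sub]
    apply Matrix.PosSemidef.diagonal
    intro σ
    simp only [Pi.zero_apply]
    rw [← Complex.ofReal_mul, ← Complex.ofReal_sub, Complex.zero_le_real]
    have ha : (0 : ℝ) ≤ (((σ x : Fin d) : ℕ) : ℝ) := by positivity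
    have hb : (0 : ℝ) ≤ (((σ y : Fin d) : ℕ) : ℝ) := by positivity
    have ha' := fin_sub_nonneg (σ x)
    have hb' := fin_sub_nonneg (σ y)
    unfold Sv
    nlinarith [mul_nonneg ha hb', mul_nonneg hb ha']

theorem trace_exp_pos {ι : Type*} [Fintype ι] [DecidableEq ι] [Nonempty ι]
    (K : Matrix ι ι ℂ) (hK : K.IsHermitian) (c : ℝ) :
    0 < (trace (NormedSpace.exp ((c : ℂ) • K))).re := by
  rw [exp_smul_hermitian K hK c, Matrix.trace_mul_cycle, Unitary.coe_star_mul_self,
    Matrix.one_mul, Matrix.trace_diagonal, Complex.re_sum]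
  apply Finset.sum_pos
  · intro i _
    rw [Complex.ofReal_re]
    exact Real.exp_pos _
  · exact Finset.univ_nonempty

theorem spinDot_eq_bond (x y : Λ) : spinDot d x y = bond (cSp d) (cSz d) x y := by
  have hc : (1 / (2 * Complex.I) : ℂ) * (1 / (2 * Complex.I)) = -(1 / 4) := by
    have hI : Complex.I ≠ 0 := Complex.I_ne_zero
    field_simp
    rw [Complex.I_sq]
    ring
  have hY : siteOp x (spinY d) * siteOp y (spinY d) =
      (-(1 / 4) : ℂ) • (siteOp x (spinPlus d - spinMinus d) *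
        siteOp y (spinPlus d - spinMinus d)) := by
    unfold spinY
    rw [siteOp_smul, siteOp_smul, Matrix.smul_mul, Matrix.mul_smul, smul_smul, hc]
  unfold spinDot bond
  rw [hY]
  unfold spinX
  simp only [cSp_conjTranspose]
  unfold cSp cSz spinMinus
  simp only [siteOp_add, siteOp_sub, siteOp_smul, Matrix.add_mul, Matrix.mul_add,
    Matrix.sub_mul, Matrix.mul_sub, Matrix.smul_mul, Matrix.mul_smul, smul_smul]
  module

/-- index set of the bonds of the box: (site, direction) -/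
abbrev BondIdx (N : ℕ) : Type := Site N × Fin 3

theorem hamiltonian_eq (N : ℕ) :
    hamiltonian d N = Hab (cSp d) (cSz d)
      (fun i : BondIdx N => (i.1 i.2 : ℕ) + 1 < 2 * N + 1) (fun i => i.1)
      (fun i => nbr i.1 i.2) := by
  unfold hamiltonian Hab
  rw [Fintype.sum_prod_type]
  simp only [spinDot_eq_bond]

theorem magnetization_eq (N : ℕ) : magnetization d N = Mab (cSz (Λ := Site N) d) := rfl

theorem bond_ok (N : ℕ) (i : BondIdx N) (hi : (i.1 i.2 : ℕ) + 1 < 2 * N + 1) :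
    i.1 ≠ nbr i.1 i.2 := by
  intro hcon
  have hn : nbr i.1 i.2 = Function.update i.1 i.2 ⟨(i.1 i.2 : ℕ) + 1, hi⟩ := dif_pos hi
  have h2 := congrFun hcon i.2
  rw [hn, Function.update_self] at h2
  have h3 := congrArg Fin.val h2
  simp at h3

end Vale.Agent.Lib.P361
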