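import Vale.Agent.Lib.P361.Roepstorff

set_option linter.unusedSectionVars false
set_option linter.unusedSimpArgs false

namespace Vale.Agent.Lib.P361

open Matrix Finset
open scoped ComplexOrder

variable {ι : Type*} [Fintype ι] [DecidableEq ι] {Λ : Type*} [Fintype Λ] [DecidableEq Λ]

/-- commutator -/
def cm (a b : Matrix ι ι ℂ) : Matrix ι ι ℂ := a * b - b * a

theorem cm_mul_right (a b c : Matrix ι ι ℂ) : cm a (b * c) = cm a b * c + b * cm a c := by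
  simp only [cm]; noncomm_ring

theorem cm_mul_left (a b c : Matrix ι ι ℂ) : cm (a * b) c = a * cm b c + cm a c * b := by
  simp only [cm]; noncomm_ring

theorem cm_add_right (a b c : Matrix ι ι ℂ) : cm a (b + c) = cm a b + cm a c := by
  simp only [cm]; noncomm_ring

theorem cm_add_left (a b c : Matrix ι ι ℂ) : cm (a + b) c = cm a c + cm b c := by
  simp only [cm]; noncomm_ring

theorem cm_sub_right (a b c : Matrix ι ι ℂ) : cm a (b - c) = cm a b - cm a c := by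
  simp only [cm]; noncomm_ring

theorem cm_sub_left (a b c : Matrix ι ι ℂ) : cm (a - b) c = cm a c - cm b c := by
  simp only [cm]; noncomm_ring

theorem cm_smul_right (k : ℂ) (a b : Matrix ι ι ℂ) : cm a (k • b) = k • cm a b := by
  simp only [cm, Matrix.mul_smul, Matrix.smul_mul, smul_sub]

theorem cm_smul_left (k : ℂ) (a b : Matrix ι ι ℂ) : cm (k • a) b = k • cm a b := by
  simp only [cm, Matrix.mul_smul, Matrix.smul_mul, smul_sub]

theorem cm_neg_right (a b : Matrix ι ι ℂ) : cm a (-b) = -cm a b := by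
  simp only [cm]; noncomm_ring

theorem cm_neg_left (a b : Matrix ι ι ℂ) : cm (-a) b = -cm a b := by
  simp only [cm]; noncomm_ring

theorem cm_zero_right (a : Matrix ι ι ℂ) : cm a 0 = 0 := by simp [cm]

theorem cm_zero_left (a : Matrix ι ι ℂ) : cm 0 a = 0 := by simp [cm]

theorem cm_sum_right {κ : Type*} (s : Finset κ) (a : Matrix ι ι ℂ) (f : κ → Matrix ι ι ℂ) :
    cm a (∑ i ∈ s, f i) = ∑ i ∈ s, cm a (f i) := by
  simp only [cm, Finset.mul_sum, Finset.sum_mul, Finset.sum_sub_distrib]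

theorem cm_sum_left {κ : Type*} (s : Finset κ) (a : Matrix ι ι ℂ) (f : κ → Matrix ι ι ℂ) :
    cm (∑ i ∈ s, f i) a = ∑ i ∈ s, cm (f i) a := by
  simp only [cm, Finset.mul_sum, Finset.sum_mul, Finset.sum_sub_distrib]

theorem cm_ite_right (P : Prop) [Decidable P] (a b : Matrix ι ι ℂ) :
    cm a (if P then b else 0) = if P then cm a b else 0 := by
  split_ifs <;> simp [cm_zero_right]

theorem cm_ite_left (P : Prop) [Decidable P] (a b : Matrix ι ι ℂ) :
    cm (if P then b else 0) a = if P then cm b a else 0 := by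
  split_ifs <;> simp [cm_zero_left]

theorem cm_antisymm (a b : Matrix ι ι ℂ) : cm a b = -cm b a := by
  simp only [cm]; noncomm_ring

/-- magnon creation-type operator `C_φ = ∑ φ(x) S⁺_x` -/
def Cop (Sp : Λ → Matrix ι ι ℂ) (φ : Λ → ℂ) : Matrix ι ι ℂ := ∑ w, φ w • Sp w

theorem Cop_conjTranspose (Sp : Λ → Matrix ι ι ℂ) (φ : Λ → ℂ) :
    (Cop Sp φ)ᴴ = ∑ w, (starRingEnd ℂ) (φ w) • (Sp w)ᴴ := by
  simp only [Cop, conjTranspose_sum, conjTranspose_smul, Complex.star_def]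

/-- The relations of a system of commuting spins. -/
structure SpinSys (Sp Sz : Λ → Matrix ι ι ℂ) : Prop where
  zH : ∀ x, (Sz x).IsHermitian
  zT : ∀ x, (Sz x)ᵀ = Sz x
  pT : ∀ x, (Sp x)ᵀ = (Sp x)ᴴ
  pm : ∀ x y, x ≠ y → Sp x * (Sp y)ᴴ = (Sp y)ᴴ * Sp x
  pp : ∀ x y, Sp x * Sp y = Sp y * Sp x
  zz : ∀ x y, Sz x * Sz y = Sz y * Sz x
  zp : ∀ x y, x ≠ y → Sz x * Sp y = Sp y * Sz x
  zp' : ∀ x, Sz x * Sp x - Sp x * Sz x = Sp x
  pm' : ∀ x, Sp x * (Sp x)ᴴ - (Sp x)ᴴ * Sp x = (2 : ℂ) • Sz x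

namespace SpinSys

variable {Sp Sz : Λ → Matrix ι ι ℂ} (hS : SpinSys Sp Sz)
include hS

theorem cm_p_z (w x : Λ) : cm (Sp w) (Sz x) = if w = x then -Sp x else 0 := by
  by_cases hwx : w = x
  · subst hwx
    rw [if_pos rfl, cm, ← neg_sub, hS.zp']
  · rw [if_neg hwx, cm, hS.zp x w (Ne.symm hwx), sub_self]

theorem cm_p_p (w x : Λ) : cm (Sp w) (Sp x) = 0 := by
  rw [cm, hS.pp w x, sub_self]

theorem cm_p_m (w x : Λ) : cm (Sp w) (Sp x)ᴴ = if w = x then (2 : ℂ) • Sz x else 0 := by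
  by_cases hwx : w = x
  · subst hwx
    rw [if_pos rfl, cm, hS.pm']
  · rw [if_neg hwx, cm, hS.pm w x hwx, sub_self]

theorem cm_z_m (w x : Λ) : cm (Sz w) (Sp x)ᴴ = if w = x then -(Sp x)ᴴ else 0 := by
  have h := congrArg conjTranspose (hS.cm_p_z x w)
  have h2 : (cm (Sp x) (Sz w))ᴴ = cm (Sz w) (Sp x)ᴴ := by
    simp only [cm, conjTranspose_sub, conjTranspose_mul, (hS.zH w).eq]
  rw [h2] at h
  rw [h]
  by_cases hwx : w = x
  · subst hwx; simp
  · rw [if_neg hwx, if_neg (Ne.symm hwx)]; simp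

theorem cm_m_m (w x : Λ) : cm (Sp w)ᴴ (Sp x)ᴴ = 0 := by
  rw [cm, ← conjTranspose_mul, ← conjTranspose_mul, hS.pp x w, sub_self]

theorem cm_z_z (w x : Λ) : cm (Sz w) (Sz x) = 0 := by
  rw [cm, hS.zz w x, sub_self]


theorem cm_C_z (φ : Λ → ℂ) (x : Λ) : cm (Cop Sp φ) (Sz x) = -(φ x • Sp x) := by
  simp only [Cop, cm_sum_left, cm_smul_left, hS.cm_p_z]
  rw [Finset.sum_eq_single x]
  · simp
  · intro w _ hw; simp [hw]
  · intro h; exact absurd (Finset.mem_univ _) h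

theorem cm_C_p (φ : Λ → ℂ) (x : Λ) : cm (Cop Sp φ) (Sp x) = 0 := by
  simp only [Cop, cm_sum_left, cm_smul_left, hS.cm_p_p, smul_zero, Finset.sum_const_zero]

theorem cm_C_m (φ : Λ → ℂ) (x : Λ) : cm (Cop Sp φ) (Sp x)ᴴ = (2 * φ x) • Sz x := by
  simp only [Cop, cm_sum_left, cm_smul_left, hS.cm_p_m]
  rw [Finset.sum_eq_single x]
  · simp [smul_smul, mul_comm]
  · intro w _ hw; simp [hw]
  · intro h; exact absurd (Finset.mem_univ _) h

theorem cm_z_Cs (φ : Λ → ℂ) (x : Λ) :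
    cm (Sz x) (Cop Sp φ)ᴴ = -((starRingEnd ℂ) (φ x) • (Sp x)ᴴ) := by
  simp only [Cop_conjTranspose, cm_sum_right, cm_smul_right, hS.cm_z_m]
  rw [Finset.sum_eq_single x]
  · simp
  · intro w _ hw; simp [Ne.symm hw]
  · intro h; exact absurd (Finset.mem_univ _) h

theorem cm_p_Cs (φ : Λ → ℂ) (x : Λ) :
    cm (Sp x) (Cop Sp φ)ᴴ = (2 * (starRingEnd ℂ) (φ x)) • Sz x := by
  simp only [Cop_conjTranspose, cm_sum_right, cm_smul_right, hS.cm_p_m]
  rw [Finset.sum_eq_single x]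
  · simp [smul_smul, mul_comm]
  · intro w _ hw; simp [Ne.symm hw]
  · intro h; exact absurd (Finset.mem_univ _) h

theorem cm_m_Cs (φ : Λ → ℂ) (x : Λ) : cm (Sp x)ᴴ (Cop Sp φ)ᴴ = 0 := by
  simp only [Cop_conjTranspose, cm_sum_right, cm_smul_right, hS.cm_m_m, smul_zero,
    Finset.sum_const_zero]

end SpinSys

/-- bond operator `S_x · S_y` in terms of `S^±, S^3` -/
noncomputable def bond (Sp Sz : Λ → Matrix ι ι ℂ) (x y : Λ) : Matrix ι ι ℂ :=
  Sz x * Sz y + (1 / 2 : ℂ) • (Sp x * (Sp y)ᴴ + (Sp x)ᴴ * Sp y)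

/-- `F_xy = S^3_x S^+_y - S^+_x S^3_y` -/
def Fop (Sp Sz : Λ → Matrix ι ι ℂ) (x y : Λ) : Matrix ι ι ℂ :=
  Sz x * Sp y - Sp x * Sz y

namespace SpinSys

variable {Sp Sz : Λ → Matrix ι ι ℂ} (hS : SpinSys Sp Sz)
include hS

theorem cm_C_bond (φ : Λ → ℂ) (x y : Λ) :
    cm (Cop Sp φ) (bond Sp Sz x y) = (φ x - φ y) • Fop Sp Sz x y := by
  simp only [bond, Fop, cm_add_right, cm_smul_right, cm_mul_right, hS.cm_C_z, hS.cm_C_p,
    hS.cm_C_m, Matrix.neg_mul, Matrix.mul_neg, Matrix.smul_mul, Matrix.mul_smul, Matrix.zero_mul,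
    Matrix.mul_zero, zero_add, add_zero, smul_add, smul_sub, smul_smul, sub_smul]
  module

theorem cm_F_Cs (φ : Λ → ℂ) (x y : Λ) :
    cm (Fop Sp Sz x y) (Cop Sp φ)ᴴ =
      (2 * ((starRingEnd ℂ) (φ y) - (starRingEnd ℂ) (φ x))) • (Sz x * Sz y)
        - (starRingEnd ℂ) (φ x) • ((Sp x)ᴴ * Sp y) + (starRingEnd ℂ) (φ y) • (Sp x * (Sp y)ᴴ) := by
  simp only [Fop, cm_sub_left, cm_mul_left, hS.cm_z_Cs, hS.cm_p_Cs,
    Matrix.neg_mul, Matrix.mul_neg, Matrix.smul_mul, Matrix.mul_smul, Matrix.zero_mul,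
    Matrix.mul_zero, zero_add, add_zero, smul_add, smul_sub, smul_smul, sub_smul]
  module

end SpinSys

/-- total magnetization -/
def Mab (Sz : Λ → Matrix ι ι ℂ) : Matrix ι ι ℂ := ∑ x, Sz x

/-- abstract Hamiltonian: minus the sum of the bonds `(s i, t i)` over the admissible `i` -/
noncomputable def Hab {I : Type*} [Fintype I] (Sp Sz : Λ → Matrix ι ι ℂ) (ok : I → Prop)
    [DecidablePred ok] (s t : I → Λ) : Matrix ι ι ℂ :=
  -∑ i, if ok i then bond Sp Sz (s i) (t i) else 0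

namespace SpinSys

variable {Sp Sz : Λ → Matrix ι ι ℂ} (hS : SpinSys Sp Sz)
include hS

theorem cm_C_M (φ : Λ → ℂ) : cm (Cop Sp φ) (Mab Sz) = -Cop Sp φ := by
  simp only [Mab, cm_sum_right, hS.cm_C_z, Finset.sum_neg_distrib]
  rfl

theorem cm_z_M (w : Λ) : cm (Sz w) (Mab Sz) = 0 := by
  simp only [Mab, cm_sum_right, hS.cm_z_z, Finset.sum_const_zero]

theorem cm_p_M (w : Λ) : cm (Sp w) (Mab Sz) = -Sp w := by
  simp only [Mab, cm_sum_right, hS.cm_p_z]
  rw [Finset.sum_eq_single w]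
  · simp
  · intro x _ hx; simp [Ne.symm hx]
  · intro h; exact absurd (Finset.mem_univ _) h

theorem cm_m_M (w : Λ) : cm (Sp w)ᴴ (Mab Sz) = (Sp w)ᴴ := by
  simp only [Mab, cm_sum_right]
  rw [Finset.sum_eq_single w]
  · rw [cm_antisymm, hS.cm_z_m]; simp
  · intro x _ hx; rw [cm_antisymm, hS.cm_z_m]; simp [hx]
  · intro h; exact absurd (Finset.mem_univ _) h

theorem cm_bond_M (x y : Λ) : cm (bond Sp Sz x y) (Mab Sz) = 0 := by
  simp only [bond, cm_add_left, cm_smul_left, cm_mul_left, hS.cm_z_M, hS.cm_p_M, hS.cm_m_M,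
    Matrix.neg_mul, Matrix.mul_neg, Matrix.zero_mul, Matrix.mul_zero, zero_add, add_zero]
  module

theorem cm_H_M {I : Type*} [Fintype I] (ok : I → Prop) [DecidablePred ok] (s t : I → Λ) :
    cm (Hab Sp Sz ok s t) (Mab Sz) = 0 := by
  simp only [Hab, cm_neg_left, cm_sum_left, cm_ite_left, hS.cm_bond_M]
  simp

theorem cm_C_H {I : Type*} [Fintype I] (ok : I → Prop) [DecidablePred ok] (s t : I → Λ)
    (φ : Λ → ℂ) :
    cm (Cop Sp φ) (Hab Sp Sz ok s t) =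
      -∑ i, if ok i then (φ (s i) - φ (t i)) • Fop Sp Sz (s i) (t i) else 0 := by
  simp only [Hab, cm_neg_right, cm_sum_right, cm_ite_right, hS.cm_C_bond]

theorem cm_C_Cs (φ : Λ → ℂ) :
    cm (Cop Sp φ) (Cop Sp φ)ᴴ = ∑ x, (2 * ((starRingEnd ℂ) (φ x) * φ x)) • Sz x := by
  conv_lhs => rw [Cop_conjTranspose]
  simp only [cm_sum_right, cm_smul_right, hS.cm_C_m, smul_smul]
  refine Finset.sum_congr rfl fun x _ => ?_
  congr 1; ring

/-- the double commutator -/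
theorem double_comm {I : Type*} [Fintype I] (ok : I → Prop) [DecidablePred ok] (s t : I → Λ)
    (φ : Λ → ℂ) (h : ℂ) :
    cm (cm (Cop Sp φ) (Hab Sp Sz ok s t - h • Mab Sz)) (Cop Sp φ)ᴴ =
      (-∑ i, if ok i then (φ (s i) - φ (t i)) •
        ((2 * ((starRingEnd ℂ) (φ (t i)) - (starRingEnd ℂ) (φ (s i)))) • (Sz (s i) * Sz (t i))
          - (starRingEnd ℂ) (φ (s i)) • ((Sp (s i))ᴴ * Sp (t i))
          + (starRingEnd ℂ) (φ (t i)) • (Sp (s i) * (Sp (t i))ᴴ)) else 0)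
      + h • ∑ x, (2 * ((starRingEnd ℂ) (φ x) * φ x)) • Sz x := by
  rw [cm_sub_right, cm_smul_right, hS.cm_C_M, hS.cm_C_H, cm_sub_left, cm_neg_left, cm_sum_left,
    cm_smul_left, cm_neg_left, hS.cm_C_Cs]
  simp only [cm_ite_left, cm_smul_left, hS.cm_F_Cs]
  simp only [smul_neg, sub_neg_eq_add]

end SpinSys

/-- `Tr (ρ X)` -/
def trC (ρ X : Matrix ι ι ℂ) : ℂ := trace (ρ * X)

theorem trC_add (ρ X Y : Matrix ι ι ℂ) : trC ρ (X + Y) = trC ρ X + trC ρ Y := by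
  simp only [trC, Matrix.mul_add, trace_add]

theorem trC_sub (ρ X Y : Matrix ι ι ℂ) : trC ρ (X - Y) = trC ρ X - trC ρ Y := by
  simp only [trC, Matrix.mul_sub, trace_sub]

theorem trC_neg (ρ X : Matrix ι ι ℂ) : trC ρ (-X) = -trC ρ X := by
  simp only [trC, Matrix.mul_neg, trace_neg]

theorem trC_smul (ρ : Matrix ι ι ℂ) (c : ℂ) (X : Matrix ι ι ℂ) : trC ρ (c • X) = c * trC ρ X := by
  simp only [trC, Matrix.mul_smul, trace_smul, smul_eq_mul]

theorem trC_zero (ρ : Matrix ι ι ℂ) : trC ρ 0 = 0 := by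
  simp only [trC, Matrix.mul_zero, trace_zero]

theorem trC_sum {κ : Type*} (s : Finset κ) (ρ : Matrix ι ι ℂ) (f : κ → Matrix ι ι ℂ) :
    trC ρ (∑ i ∈ s, f i) = ∑ i ∈ s, trC ρ (f i) := by
  simp only [trC, Finset.mul_sum, trace_sum]

theorem trC_ite (P : Prop) [Decidable P] (ρ X : Matrix ι ι ℂ) :
    trC ρ (if P then X else 0) = if P then trC ρ X else 0 := by
  split_ifs <;> simp [trC_zero]

theorem trC_transpose (ρ X : Matrix ι ι ℂ) (hρ : ρᵀ = ρ) : trC ρ Xᵀ = trC ρ X := by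
  simp only [trC]
  calc trace (ρ * Xᵀ) = trace (ρᵀ * Xᵀ) := by rw [hρ]
    _ = trace ((X * ρ)ᵀ) := by rw [Matrix.transpose_mul]
    _ = trace (X * ρ) := Matrix.trace_transpose _
    _ = trace (ρ * X) := Matrix.trace_mul_comm _ _

/-- Gibbs weights are positive semidefinite, hence have nonnegative expectation on
positive semidefinite matrices. -/
theorem trC_exp_nonneg (K X : Matrix ι ι ℂ) (hK : K.IsHermitian) (c : ℝ) (hX : X.PosSemidef) :
    0 ≤ (trC (NormedSpace.exp ((c : ℂ) • K)) X).re := by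
  set R : Matrix ι ι ℂ := NormedSpace.exp (((c / 2 : ℝ) : ℂ) • K) with hR
  have hRH : R.IsHermitian := by
    apply Matrix.IsHermitian.exp
    rw [Matrix.IsHermitian, conjTranspose_smul, hK.eq]
    simp
  have hRR : NormedSpace.exp ((c : ℂ) • K) = R * R := by
    rw [hR, ← Matrix.exp_add_of_commute _ _ (Commute.refl _), ← add_smul]
    congr 2
    push_cast; ring
  have h1 : trC (NormedSpace.exp ((c : ℂ) • K)) X = trace (R * X * Rᴴ) := by
    rw [trC, hRR, hRH.eq, Matrix.mul_assoc, Matrix.trace_mul_comm, Matrix.mul_assoc]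
  rw [h1]
  exact (Complex.nonneg_iff.mp (hX.mul_mul_conjTranspose_same R).trace_nonneg).1

theorem exp_smul_transpose (K : Matrix ι ι ℂ) (hK : Kᵀ = K) (c : ℂ) :
    (NormedSpace.exp (c • K))ᵀ = NormedSpace.exp (c • K) := by
  rw [← Matrix.exp_transpose, Matrix.transpose_smul, hK]

end Vale.Agent.Lib.P361
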