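import Mathlib

set_option linter.unusedSectionVars false
set_option linter.unusedSimpArgs false

namespace Vale.Agent.Lib.P361

open MeasureTheory Finset Filter Topology

/-- the one-dimensional lattice heat-kernel average `(1/π) ∫_0^π exp(-c (1 - cos t)) dt` -/
noncomputable def latI (c : ℝ) : ℝ :=
  (1 / Real.pi) * ∫ t in (0 : ℝ)..Real.pi, Real.exp (-c * (1 - Real.cos t))

theorem latI_nonneg (c : ℝ) : 0 ≤ latI c := by
  unfold latI
  apply mul_nonneg (by positivity)
  apply intervalIntegral.integral_nonneg Real.pi_pos.le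
  intro t _
  exact (Real.exp_pos _).le

theorem integral_Icc_cos (b : ℝ) :
    ∫ t in Set.Icc (-Real.pi) Real.pi, Real.exp (-b * (2 - 2 * Real.cos t)) =
      2 * Real.pi * latI (2 * b) := by
  have hpi := Real.pi_pos
  rw [integral_Icc_eq_integral_Ioc, ← intervalIntegral.integral_of_le (by linarith)]
  have hc : Continuous (fun t : ℝ => Real.exp (-b * (2 - 2 * Real.cos t))) := by fun_prop
  rw [← intervalIntegral.integral_add_adjacent_intervals (b := 0) (hc.intervalIntegrable _ _)
    (hc.intervalIntegrable _ _)]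
  have h1 : ∫ t in (-Real.pi)..0, Real.exp (-b * (2 - 2 * Real.cos t)) =
      ∫ t in (0 : ℝ)..Real.pi, Real.exp (-b * (2 - 2 * Real.cos t)) := by
    have := intervalIntegral.integral_comp_neg (a := 0) (b := Real.pi)
      (fun t => Real.exp (-b * (2 - 2 * Real.cos t)))
    simp only [Real.cos_neg, neg_zero] at this
    rw [this]
  rw [h1]
  unfold latI
  have h2 : ∀ t : ℝ, Real.exp (-(2 * b) * (1 - Real.cos t)) =
      Real.exp (-b * (2 - 2 * Real.cos t)) := fun t => by ring_nf
  simp only [h2]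
  field_simp
  ring

theorem integral_bz_exp (b : ℝ) :
    ∫ k in Set.pi Set.univ (fun _ : Fin 3 => Set.Icc (-Real.pi) Real.pi),
      Real.exp (-b * ∑ j, (2 - 2 * Real.cos (k j))) = (2 * Real.pi * latI (2 * b)) ^ 3 := by
  have h1 : ∀ k : Fin 3 → ℝ, Real.exp (-b * ∑ j, (2 - 2 * Real.cos (k j))) =
      ∏ j, Real.exp (-b * (2 - 2 * Real.cos (k j))) := by
    intro k
    rw [← Real.exp_sum, Finset.mul_sum]
  simp only [h1]
  rw [volume_pi, Measure.restrict_pi_pi,
    integral_fintype_prod_eq_pow (fun t : ℝ => Real.exp (-b * (2 - 2 * Real.cos t)))]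
  rw [integral_Icc_cos]
  simp

theorem omega_nonneg (k : Fin 3 → ℝ) : 0 ≤ ∑ j, (2 - 2 * Real.cos (k j)) := by
  apply Finset.sum_nonneg
  intro j _
  linarith [Real.cos_le_one (k j)]

theorem omega_pos (k : Fin 3 → ℝ) (hk : k ∈ Set.pi Set.univ (fun _ : Fin 3 => Set.Icc (-Real.pi) Real.pi))
    (h0 : k 0 ≠ 0) : 0 < ∑ j, (2 - 2 * Real.cos (k j)) := by
  have hpi := Real.pi_pos
  have hk0 : k 0 ∈ Set.Icc (-Real.pi) Real.pi := hk 0 (Set.mem_univ _)
  have hcos : Real.cos (k 0) < 1 := by
    rcases lt_or_eq_of_le (Real.cos_le_one (k 0)) with h | h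
    · exact h
    · exfalso
      apply h0
      exact (Real.cos_eq_one_iff_of_lt_of_lt (by linarith [hk0.1]) (by linarith [hk0.2])).1 h
  have h1 : ∀ j ∈ (Finset.univ : Finset (Fin 3)), 0 ≤ 2 - 2 * Real.cos (k j) := by
    intro j _
    linarith [Real.cos_le_one (k j)]
  have h2 : 2 - 2 * Real.cos (k 0) ≤ ∑ j, (2 - 2 * Real.cos (k j)) :=
    Finset.single_le_sum h1 (Finset.mem_univ 0)
  linarith

/-- geometric series: `∑_{n ≥ 0} exp(-(n+1) x) = 1/(exp x - 1)` for `x > 0` -/
theorem hasSum_bose {x : ℝ} (hx : 0 < x) :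
    HasSum (fun n : ℕ => Real.exp (-(((n : ℝ) + 1) * x))) (1 / (Real.exp x - 1)) := by
  have hr0 : 0 ≤ Real.exp (-x) := (Real.exp_pos _).le
  have hr1 : Real.exp (-x) < 1 := by
    have : Real.exp (-x) < Real.exp 0 := Real.exp_lt_exp.mpr (by linarith)
    simpa using this
  have h1 := (hasSum_geometric_of_lt_one hr0 hr1).mul_left (Real.exp (-x))
  have h2 : ∀ n : ℕ, Real.exp (-x) * Real.exp (-x) ^ n = Real.exp (-(((n : ℝ) + 1) * x)) := by
    intro n
    rw [← Real.exp_nat_mul, ← Real.exp_add]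
    congr 1
    ring
  simp only [h2] at h1
  have h3 : Real.exp (-x) * (1 - Real.exp (-x))⁻¹ = 1 / (Real.exp x - 1) := by
    have hex : 1 < Real.exp x := by
      rw [Real.one_lt_exp_iff]
      exact hx
    rw [Real.exp_neg]
    have hne : Real.exp x ≠ 0 := (Real.exp_pos x).ne'
    have hne2 : Real.exp x - 1 ≠ 0 := by linarith
    have hne3 : 1 - (Real.exp x)⁻¹ ≠ 0 := by
      have : (Real.exp x)⁻¹ < 1 := inv_lt_one_of_one_lt₀ hex
      linarith
    field_simp
  rw [h3] at h1
  exact h1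

/-- The Bose integral over the Brillouin zone is bounded by the bound on the partial sums of the
corresponding series of lattice heat-kernel averages. -/
theorem bose_integral_le (a C : ℝ) (ha : 0 < a)
    (hC : ∀ M : ℕ, ∑ n ∈ Finset.range M, latI (2 * (((n : ℝ) + 1) * a)) ^ 3 ≤ C) :
    IntegrableOn (fun k : Fin 3 → ℝ => 1 / (Real.exp (a * ∑ j, (2 - 2 * Real.cos (k j))) - 1))
      (Set.pi Set.univ fun _ => Set.Icc (-Real.pi) Real.pi) ∧
    1 / (2 * Real.pi) ^ 3 *
      ∫ k in Set.pi Set.univ (fun _ : Fin 3 => Set.Icc (-Real.pi) Real.pi),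
        1 / (Real.exp (a * ∑ j, (2 - 2 * Real.cos (k j))) - 1) ≤ C := by
  have hpi := Real.pi_pos
  have hC0 : 0 ≤ C := by simpa using hC 0
  set cube : Set (Fin 3 → ℝ) := Set.pi Set.univ fun _ => Set.Icc (-Real.pi) Real.pi with hcube
  have hcm : MeasurableSet cube := MeasurableSet.univ_pi fun _ => measurableSet_Icc
  have hcc : IsCompact cube := isCompact_univ_pi fun _ => isCompact_Icc
  set f : (Fin 3 → ℝ) → ℝ := fun k => 1 / (Real.exp (a * ∑ j, (2 - 2 * Real.cos (k j))) - 1)
    with hf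
  set g : ℕ → (Fin 3 → ℝ) → ℝ := fun n k =>
    Real.exp (-(((n : ℝ) + 1) * a) * ∑ j, (2 - 2 * Real.cos (k j))) with hg
  have hfm : Measurable f := by
    simp only [hf]
    fun_prop
  have hgc : ∀ n, Continuous (g n) := by
    intro n
    simp only [hg]
    fun_prop
  have hf0 : ∀ k, 0 ≤ f k := by
    intro k
    simp only [hf]
    apply div_nonneg zero_le_one
    have : 0 ≤ a * ∑ j, (2 - 2 * Real.cos (k j)) := mul_nonneg ha.le (omega_nonneg k)
    linarith [Real.add_one_le_exp (a * ∑ j, (2 - 2 * Real.cos (k j)))]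
  have hg0 : ∀ n k, 0 ≤ g n k := fun n k => (Real.exp_pos _).le
  -- almost everywhere on the cube the series sums to `f`
  have hae : ∀ᵐ k ∂(volume.restrict cube),
      (∑' n, ENNReal.ofReal (g n k)) = ENNReal.ofReal (f k) := by
    have h1 : ∀ᵐ k ∂(volume.restrict cube), k ∈ cube := ae_restrict_mem hcm
    have h2 : ∀ᵐ k ∂(volume.restrict cube), k 0 ≠ 0 := by
      apply ae_restrict_of_ae
      rw [volume_pi]
      exact Measure.ae_eval_ne (fun _ : Fin 3 => (volume : Measure ℝ)) 0 0
    filter_upwards [h1, h2] with k hk hk0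
    have hω := omega_pos k hk hk0
    have hs := hasSum_bose (mul_pos ha hω)
    have hs' : HasSum (fun n => g n k) (f k) := by
      simp only [hg, hf]
      convert hs using 2
      ring_nf
    rw [← hs'.tsum_eq]
    exact (ENNReal.ofReal_tsum_of_nonneg (fun n => hg0 n k) hs'.summable).symm
  have hgi : ∀ n, Integrable (g n) (volume.restrict cube) :=
    fun n => (hgc n).continuousOn.integrableOn_compact hcc
  have hgint : ∀ n, ∫ k in cube, g n k = (2 * Real.pi * latI (2 * (((n : ℝ) + 1) * a))) ^ 3 :=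
    fun n => integral_bz_exp _
  have hlin : ∫⁻ k in cube, ENNReal.ofReal (f k) ≤ ENNReal.ofReal ((2 * Real.pi) ^ 3 * C) := by
    rw [← lintegral_congr_ae hae, lintegral_tsum (f := fun n k => ENNReal.ofReal (g n k))
      (fun n => ((hgc n).measurable.ennreal_ofReal).aemeasurable)]
    apply ENNReal.tsum_le_of_sum_range_le
    intro M
    have h3 : ∀ n, ∫⁻ k in cube, ENNReal.ofReal (g n k) =
        ENNReal.ofReal ((2 * Real.pi * latI (2 * (((n : ℝ) + 1) * a))) ^ 3) := by
      intro n
      rw [← ofReal_integral_eq_lintegral_ofReal (hgi n) (Eventually.of_forall (hg0 n)), hgint n]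
    simp only [h3]
    rw [← ENNReal.ofReal_sum_of_nonneg]
    · apply ENNReal.ofReal_le_ofReal
      have h4 : ∑ n ∈ Finset.range M, (2 * Real.pi * latI (2 * (((n : ℝ) + 1) * a))) ^ 3 =
          (2 * Real.pi) ^ 3 * ∑ n ∈ Finset.range M, latI (2 * (((n : ℝ) + 1) * a)) ^ 3 := by
        rw [Finset.mul_sum]
        refine Finset.sum_congr rfl fun n _ => ?_
        ring
      rw [h4]
      exact mul_le_mul_of_nonneg_left (hC M) (by positivity)
    · intro n _
      have := latI_nonneg (2 * (((n : ℝ) + 1) * a))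
      positivity
  have hfin : HasFiniteIntegral f (volume.restrict cube) := by
    rw [hasFiniteIntegral_iff_ofReal (Eventually.of_forall hf0)]
    exact lt_of_le_of_lt hlin ENNReal.ofReal_lt_top
  have hint : Integrable f (volume.restrict cube) := ⟨hfm.aestronglyMeasurable, hfin⟩
  refine ⟨hint, ?_⟩
  have h5 : ∫ k in cube, f k ≤ (2 * Real.pi) ^ 3 * C := by
    rw [integral_eq_lintegral_of_nonneg_ae (Eventually.of_forall hf0) hfm.aestronglyMeasurable]
    exact ENNReal.toReal_le_of_le_ofReal (by positivity) hlin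
  rw [one_div, inv_mul_le_iff₀ (by positivity)]
  exact h5

end Vale.Agent.Lib.P361
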