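import Vale.Agent.Lib.P361.Limit
import Vale.Agent.Lib.P361.BoseIntegral
import Vale.Agent.Lib.P361.helper5.AllBeta

set_option linter.unusedSectionVars false
set_option linter.unusedSimpArgs false

namespace Vale.Agent.Lib.P361

open Filter Topology MeasureTheory

/-- All-temperature bound: the spontaneous magnetization `m` at inverse temperature `β`
satisfies `(m/S) (2π)^{-3} ∫_{[-π,π]^3} dk / (exp(β (S/m) ε_S(k)) - 1) ≤ S - m`, where
`ε_S(k) = S ∑_j (2 - 2 cos k_j)` is the one-magnon dispersion. -/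
theorem bloch_allbeta (d : ℕ) (hd : 2 ≤ d) (β : ℝ) (hβ : 0 < β) (p : ℝ → ℝ) (m : ℝ)
    (hp : ∀ h, Tendsto (fun N => pressure d N β h) atTop (𝓝 (p h)))
    (hm : HasDerivWithinAt p m (Set.Ici 0) 0) (hm0 : 0 < m) :
    IntegrableOn (fun k : Fin 3 → ℝ =>
        1 / (Real.exp (β * Sv d ^ 2 / m * ∑ j, (2 - 2 * Real.cos (k j))) - 1))
      (Set.pi Set.univ fun _ => Set.Icc (-Real.pi) Real.pi) ∧
    m / Sv d * (1 / (2 * Real.pi) ^ 3 *
      ∫ k in Set.pi Set.univ (fun _ : Fin 3 => Set.Icc (-Real.pi) Real.pi),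
        1 / (Real.exp (β * Sv d ^ 2 / m * ∑ j, (2 - 2 * Real.cos (k j))) - 1)) ≤ Sv d - m := by
  have hSv : 0 < Sv d := by
    unfold Sv
    have : (2 : ℝ) ≤ (d : ℝ) := by exact_mod_cast hd
    linarith
  have hser := bloch_series_allbeta (Sv d) hSv (fun N β h => pressure d N β h)
    (fun N β h => mN d N β h)
    (fun N β h hβ hh => concrete_conv d N (by omega) β h hβ hh)
    (fun N β h hβ hh hm => concrete_fv d N hd β h hβ hh hm) p m β hβ hp hm hm0
  have ha : 0 < β * Sv d ^ 2 / m := by positivity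
  have hC : ∀ M : ℕ, ∑ n ∈ Finset.range M,
      latI (2 * (((n : ℝ) + 1) * (β * Sv d ^ 2 / m))) ^ 3 ≤ (Sv d - m) * Sv d / m := by
    intro M
    have h1 := hser M
    generalize ∑ n ∈ Finset.range M,
      latI (2 * (((n : ℝ) + 1) * (β * Sv d ^ 2 / m))) ^ 3 = T at h1 ⊢
    rw [le_div_iff₀ hm0]
    have h2 := mul_le_mul_of_nonneg_right h1 hSv.le
    have e : m / Sv d * T * Sv d = T * m := by field_simp
    linarith
  obtain ⟨hint, hle⟩ := bose_integral_le (β * Sv d ^ 2 / m) ((Sv d - m) * Sv d / m) ha hC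
  refine ⟨hint, ?_⟩
  calc m / Sv d * (1 / (2 * Real.pi) ^ 3 *
      ∫ k in Set.pi Set.univ (fun _ : Fin 3 => Set.Icc (-Real.pi) Real.pi),
        1 / (Real.exp (β * Sv d ^ 2 / m * ∑ j, (2 - 2 * Real.cos (k j))) - 1))
      ≤ m / Sv d * ((Sv d - m) * Sv d / m) :=
        mul_le_mul_of_nonneg_left hle (by positivity)
    _ = Sv d - m := by field_simp

/-- **One-sided Bloch law and all-temperature spin-wave bound**, with the existence of the
thermodynamic limit and of the spontaneous magnetization proved. -/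
theorem bloch_upper_allbeta_full (d : ℕ) (hd : 2 ≤ d) :
    ∃ p : ℝ → ℝ → ℝ, ∃ m : ℝ → ℝ,
      (∀ β, 0 < β → ∀ h, Tendsto (fun N => pressure d N β h) atTop (𝓝 (p β h))) ∧
      (∀ β, 0 < β → HasDerivWithinAt (p β) (m β) (Set.Ici 0) 0) ∧
      (∀ β, 0 < β → 0 < m β →
        IntegrableOn (fun k : Fin 3 → ℝ =>
            1 / (Real.exp (β * (((d : ℝ) - 1) / 2) ^ 2 / m β *
              ∑ j, (2 - 2 * Real.cos (k j))) - 1))
          (Set.pi Set.univ fun _ => Set.Icc (-Real.pi) Real.pi) ∧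
        m β / (((d : ℝ) - 1) / 2) * (1 / (2 * Real.pi) ^ 3 *
          ∫ k in Set.pi Set.univ (fun _ : Fin 3 => Set.Icc (-Real.pi) Real.pi),
            1 / (Real.exp (β * (((d : ℝ) - 1) / 2) ^ 2 / m β *
              ∑ j, (2 - 2 * Real.cos (k j))) - 1)) ≤ ((d : ℝ) - 1) / 2 - m β) ∧
      ∀ c, c < (riemannZeta (3 / 2)).re /
          (8 * Real.pi ^ (3 / 2 : ℝ) * (((d : ℝ) - 1) / 2) ^ (3 / 2 : ℝ)) →
        ∀ᶠ β in atTop, c ≤ β ^ (3 / 2 : ℝ) * (((d : ℝ) - 1) / 2 - m β) := by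
  obtain ⟨p, m, h1, h2, h3⟩ := bloch_upper_full d hd
  refine ⟨p, m, h1, h2, ?_, h3⟩
  intro β hβ hm0
  exact bloch_allbeta d hd β hβ (p β) (m β) (h1 β hβ) (h2 β hβ) hm0

end Vale.Agent.Lib.P361
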