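import Vale.Agent.Lib.P361.Model

set_option linter.unusedSectionVars false
set_option linter.unusedSimpArgs false

namespace Vale.Agent.Lib.P361

open Matrix Finset
open scoped ComplexOrder

/-- unnormalised Gibbs weight `exp(-β (H_N - h M_N))` -/
noncomputable def rho (d N : ℕ) (β h : ℝ) : Matrix (Site N → Fin d) (Site N → Fin d) ℂ :=
  NormedSpace.exp (((-β : ℝ) : ℂ) • (hamiltonian d N - (h : ℂ) • magnetization d N))

/-- partition function -/
noncomputable def Zf (d N : ℕ) (β h : ℝ) : ℝ := (trace (rho d N β h)).re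

/-- unnormalised total magnetization -/
noncomputable def muf (d N : ℕ) (β h : ℝ) : ℝ := (trace (rho d N β h * magnetization d N)).re

/-- finite-volume magnetization per site -/
noncomputable def mN (d N : ℕ) (β h : ℝ) : ℝ := muf d N β h / ((2 * (N : ℝ) + 1) ^ 3 * Zf d N β h)

theorem card_site (N : ℕ) : (Fintype.card (Site N) : ℝ) = (2 * (N : ℝ) + 1) ^ 3 := by
  simp [Site]

theorem K_hermitian_c (d N : ℕ) (h : ℝ) :
    (hamiltonian d N - (h : ℂ) • magnetization d N).IsHermitian := by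
  rw [hamiltonian_eq, magnetization_eq]
  exact (spinSys (Λ := Site N) d).K_hermitian _ _ _ (bond_ok N) h

theorem Zf_pos (d N : ℕ) (hd : 0 < d) (β h : ℝ) : 0 < Zf d N β h := by
  have : Nonempty (Site N → Fin d) := ⟨fun _ => ⟨0, hd⟩⟩
  exact trace_exp_pos _ (K_hermitian_c d N h) (-β)

/-- Dirichlet energy of a plane wave -/
theorem dirichlet_le (N : ℕ) (k : Site N) :
    (∑ i : BondIdx N, if (i.1 i.2 : ℕ) + 1 < 2 * N + 1 then
      Complex.normSq (pw N k i.1 - pw N k (nbr i.1 i.2)) else 0) ≤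
    ∑ j : Fin 3, (2 - 2 * Real.cos (2 * Real.pi * ((k j : ℕ) : ℝ) / (2 * (N : ℝ) + 1))) := by
  have hV : (0 : ℝ) < (2 * (N : ℝ) + 1) ^ 3 := by positivity
  have h1 : ∀ i : BondIdx N, (if (i.1 i.2 : ℕ) + 1 < 2 * N + 1 then
      Complex.normSq (pw N k i.1 - pw N k (nbr i.1 i.2)) else 0) ≤
      1 / (2 * (N : ℝ) + 1) ^ 3 *
        (2 - 2 * Real.cos (2 * Real.pi * ((k i.2 : ℕ) : ℝ) / (2 * (N : ℝ) + 1))) := by
    intro i
    have hnn : 0 ≤ 1 / (2 * (N : ℝ) + 1) ^ 3 *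
        (2 - 2 * Real.cos (2 * Real.pi * ((k i.2 : ℕ) : ℝ) / (2 * (N : ℝ) + 1))) := by
      apply mul_nonneg (by positivity)
      have := Real.cos_le_one (2 * Real.pi * ((k i.2 : ℕ) : ℝ) / (2 * (N : ℝ) + 1))
      linarith
    split_ifs with hi
    · rw [pw_grad N k i.1 i.2 hi]
    · exact hnn
  refine le_trans (Finset.sum_le_sum fun i _ => h1 i) ?_
  rw [Fintype.sum_prod_type]
  simp only [Finset.sum_const, Finset.card_univ, nsmul_eq_mul]
  rw [card_site, ← Finset.mul_sum]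
  have : (2 * (N : ℝ) + 1) ^ 3 * (1 / (2 * (N : ℝ) + 1) ^ 3 *
      ∑ j : Fin 3, (2 - 2 * Real.cos (2 * Real.pi * ((k j : ℕ) : ℝ) / (2 * (N : ℝ) + 1)))) =
      ∑ j : Fin 3, (2 - 2 * Real.cos (2 * Real.pi * ((k j : ℕ) : ℝ) / (2 * (N : ℝ) + 1))) := by
    field_simp
  rw [this]

/-- The finite-volume inequality: `(m/S) |Λ|^{-1} ∑_k 1/(exp(β(S ε_S(k)/m + h)) - 1) ≤ S - m`. -/
theorem concrete_fv (d N : ℕ) (hd : 2 ≤ d) (β h : ℝ) (hβ : 0 < β) (hh : 0 < h)
    (hm : 0 < mN d N β h) :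
    mN d N β h / Sv d * (1 / ((2 * (N : ℝ) + 1) ^ 3)) *
      ∑ k : Fin 3 → Fin (2 * N + 1),
        1 / (Real.exp (β * (Sv d ^ 2 * (∑ j, (2 - 2 * Real.cos
          (2 * Real.pi * ((k j : ℕ) : ℝ) / (2 * (N : ℝ) + 1)))) / mN d N β h + h)) - 1)
      ≤ Sv d - mN d N β h := by
  have hS := spinSys (Λ := Site N) d
  have hV : (0 : ℝ) < (2 * (N : ℝ) + 1) ^ 3 := by positivity
  have hZ : 0 < Zf d N β h := Zf_pos d N (by omega) β h
  have hSv : 0 < Sv d := by
    unfold Sv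
    have : (2 : ℝ) ≤ (d : ℝ) := by exact_mod_cast hd
    linarith
  have hμ : 0 < muf d N β h := by
    have h1 : muf d N β h = mN d N β h * ((2 * (N : ℝ) + 1) ^ 3 * Zf d N β h) := by
      unfold mN
      field_simp
    rw [h1]
    exact mul_pos hm (mul_pos hV hZ)
  -- abstract bound
  have hρ : rho d N β h = NormedSpace.exp (((-β : ℝ) : ℂ) •
      (Hab (cSp d) (cSz d) (fun i : BondIdx N => (i.1 i.2 : ℕ) + 1 < 2 * N + 1) (fun i => i.1)
        (fun i => nbr i.1 i.2) - (h : ℂ) • Mab (cSz (Λ := Site N) d))) := by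
    unfold rho
    rw [hamiltonian_eq, magnetization_eq]
  have hμ' : muf d N β h = (trC (NormedSpace.exp (((-β : ℝ) : ℂ) •
      (Hab (cSp d) (cSz d) (fun i : BondIdx N => (i.1 i.2 : ℕ) + 1 < 2 * N + 1) (fun i => i.1)
        (fun i => nbr i.1 i.2) - (h : ℂ) • Mab (cSz (Λ := Site N) d))))
        (Mab (cSz (Λ := Site N) d))).re := by
    unfold muf trC
    rw [hρ, magnetization_eq]
  have hZ' : Zf d N β h = (trace (NormedSpace.exp (((-β : ℝ) : ℂ) •
      (Hab (cSp d) (cSz d) (fun i : BondIdx N => (i.1 i.2 : ℕ) + 1 < 2 * N + 1) (fun i => i.1)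
        (fun i => nbr i.1 i.2) - (h : ℂ) • Mab (cSz (Λ := Site N) d))))).re := by
    unfold Zf
    rw [hρ]
  have key := hS.fv_bound (fun i : BondIdx N => (i.1 i.2 : ℕ) + 1 < 2 * N + 1) (fun i => i.1)
    (fun i => nbr i.1 i.2) (bond_ok N) (Sv d) (cP1 d)
    (fun i hi => cP2 d (bond_ok N i hi)) β h hβ hh (pw N) (pw_complete N)
    (1 / (2 * (N : ℝ) + 1) ^ 3) (fun k x => pw_normSq N k x) (by positivity)
    (by rw [← hμ']; exact hμ)
  rw [← hμ', ← hZ', card_site] at key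
  have hmeq : muf d N β h = mN d N β h * ((2 * (N : ℝ) + 1) ^ 3 * Zf d N β h) := by
    unfold mN
    field_simp
  clear hμ' hZ' hρ
  generalize muf d N β h = μ at *
  generalize Zf d N β h = Z at *
  generalize mN d N β h = m at *
  generalize hVdef : (2 * (N : ℝ) + 1) ^ 3 = V at *
  have hmZ : 0 < m * Z := mul_pos hm hZ
  -- compare term by term
  have hterm : ∀ k : Site N,
      2 * (m * Z) * (1 / (Real.exp (β * (Sv d ^ 2 * (∑ j, (2 - 2 * Real.cos
          (2 * Real.pi * ((k j : ℕ) : ℝ) / (2 * (N : ℝ) + 1)))) / m + h)) - 1)) ≤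
      2 * (1 / V) * μ / (Real.exp (β * (Sv d ^ 2 * Z *
        (∑ i : BondIdx N, if (i.1 i.2 : ℕ) + 1 < 2 * N + 1 then
          Complex.normSq (pw N k i.1 - pw N k (nbr i.1 i.2)) else 0) /
        (1 / V * μ) + h)) - 1) := by
    intro k
    have hGE := dirichlet_le N k
    have hG0 : 0 ≤ ∑ i : BondIdx N, if (i.1 i.2 : ℕ) + 1 < 2 * N + 1 then
          Complex.normSq (pw N k i.1 - pw N k (nbr i.1 i.2)) else 0 := by
      refine Finset.sum_nonneg fun i _ => ?_
      split_ifs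
      · exact Complex.normSq_nonneg _
      · exact le_refl _
    generalize (∑ i : BondIdx N, if (i.1 i.2 : ℕ) + 1 < 2 * N + 1 then
          Complex.normSq (pw N k i.1 - pw N k (nbr i.1 i.2)) else 0) = G at *
    generalize (∑ j : Fin 3, (2 - 2 * Real.cos
          (2 * Real.pi * ((k j : ℕ) : ℝ) / (2 * (N : ℝ) + 1)))) = E at *
    have e1 : Sv d ^ 2 * Z * G / (1 / V * μ) = Sv d ^ 2 * G / m := by
      rw [hmeq]
      field_simp
    rw [e1]
    have e2 : 2 * (1 / V) * μ = 2 * (m * Z) := by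
      rw [hmeq]
      field_simp
    rw [e2, div_eq_mul_one_div (2 * (m * Z))]
    apply mul_le_mul_of_nonneg_left _ (by linarith)
    have hSG : 0 ≤ Sv d ^ 2 * G / m := div_nonneg (mul_nonneg (sq_nonneg _) hG0) hm.le
    have hpos : 0 < Real.exp (β * (Sv d ^ 2 * G / m + h)) - 1 := by
      have : 0 < β * (Sv d ^ 2 * G / m + h) := mul_pos hβ (by linarith)
      have := Real.add_one_lt_exp this.ne'
      linarith
    apply one_div_le_one_div_of_le hpos
    have : β * (Sv d ^ 2 * G / m + h) ≤ β * (Sv d ^ 2 * E / m + h) := by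
      apply mul_le_mul_of_nonneg_left _ hβ.le
      have : Sv d ^ 2 * G / m ≤ Sv d ^ 2 * E / m := by
        apply div_le_div_of_nonneg_right _ hm.le
        exact mul_le_mul_of_nonneg_left hGE (sq_nonneg _)
      linarith
    have := Real.exp_le_exp.mpr this
    linarith
  have hsum := le_trans (Finset.sum_le_sum fun k _ => hterm k) key
  rw [← Finset.mul_sum] at hsum
  generalize (∑ k : Site N,
      1 / (Real.exp (β * (Sv d ^ 2 * (∑ j, (2 - 2 * Real.cos
          (2 * Real.pi * ((k j : ℕ) : ℝ) / (2 * (N : ℝ) + 1)))) / m + h)) - 1)) = T at *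
  have hden : 0 < 2 * Sv d * V * Z := mul_pos (mul_pos (mul_pos two_pos hSv) hV) hZ
  have hfin : m / Sv d * (1 / V) * T = (2 * (m * Z) * T) / (2 * Sv d * V * Z) := by
    field_simp
  rw [hfin, div_le_iff₀ hden]
  calc 2 * (m * Z) * T ≤ 2 * Sv d * (Sv d * V * Z - μ) := hsum
    _ = (Sv d - m) * (2 * Sv d * V * Z) := by rw [hmeq]; ring

end Vale.Agent.Lib.P361
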