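import Vale.Agent.Lib.P361.helper61.Blocks
import Vale.Agent.Lib.P361.TL.Mono
import Vale.Agent.Lib.P361.TL.Conv

namespace Vale.Agent.Lib.P361

open Matrix Filter Topology
open scoped ComplexOrder

/-- `Tr exp` is monotone in the Loewner order. -/
theorem trace_exp_mono {n : Type*} [Fintype n] [DecidableEq n] (A B : Matrix n n ℂ)
    (hA : A.IsHermitian) (hB : B.IsHermitian) (hAB : (B - A).PosSemidef) :
    (trace (NormedSpace.exp A)).re ≤ (trace (NormedSpace.exp B)).re := by
  have h := TL.trace_exp_antitone (-B) (-A) hB.neg hA.neg (by rwa [neg_sub_neg]) 1 zero_le_one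
  have e1 : (((-1 : ℝ) : ℝ) : ℂ) • (-A) = A := by
    push_cast
    rw [neg_smul, one_smul, neg_neg]
  have e2 : (((-1 : ℝ) : ℝ) : ℂ) • (-B) = B := by
    push_cast
    rw [neg_smul, one_smul, neg_neg]
  rw [e1, e2] at h
  exact h

/-- A bounded sequence indexed by cubes of odd side which is superadditive under partitions of a
cube into smaller cubes plus a remainder converges. -/
theorem tendsto_of_block_ineq (Q : ℕ → ℝ) (hb : ∃ C, ∀ N, |Q N| ≤ C)
    (h : ∀ N N' : ℕ,
      (((((2 * N' + 1) / (2 * N + 1) : ℕ) : ℝ) * (2 * (N : ℝ) + 1)) / (2 * (N' : ℝ) + 1)) ^ 3 * Q N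
        ≤ Q N') :
    ∃ q, Tendsto Q atTop (𝓝 q) := by
  obtain ⟨C₀, hC₀⟩ := hb
  obtain ⟨l, hl⟩ := TL.tendsto_of_cube_subadditive (fun N => -Q N) 0 C₀
    (fun N => by rw [abs_neg]; exact hC₀ N) (fun N L => by
      have hLN := h L N
      have hpos : (0 : ℝ) < (2 * (N : ℝ) + 1) ^ 3 := by positivity
      rw [div_pow, div_mul_eq_mul_div, div_le_iff₀ hpos] at hLN
      linarith)
  exact ⟨-l, by simpa using hl.neg⟩

end Vale.Agent.Lib.P361
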