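import Vale.Agent.Lib.P361.OpBounds
import Vale.Agent.Lib.P361.FiniteVolume
import Vale.Agent.Lib.P361.Glue

set_option linter.unusedSectionVars false
set_option linter.unusedSimpArgs false

namespace Vale.Agent.Lib.P361

open Matrix Finset
open scoped ComplexOrder

/-- the sub-cube embedding: the site `x` of the block `i` is the site `i * L + x` of the big
cube (`L = 2N+1`, `q` blocks per side) -/
def blockMap (N N' q : ℕ) (hq : q * (2 * N + 1) ≤ 2 * N' + 1) (i : Fin 3 → Fin q)
    (x : Site N) : Site N' :=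
  fun j => ⟨(i j : ℕ) * (2 * N + 1) + (x j : ℕ), by
    have h1 : (i j : ℕ) + 1 ≤ q := (i j).isLt
    have h2 := (x j).isLt
    calc (i j : ℕ) * (2 * N + 1) + (x j : ℕ) < (i j : ℕ) * (2 * N + 1) + (2 * N + 1) := by omega
      _ = ((i j : ℕ) + 1) * (2 * N + 1) := by ring
      _ ≤ q * (2 * N + 1) := Nat.mul_le_mul_right _ h1
      _ ≤ 2 * N' + 1 := hq⟩

theorem blockMap_val (N N' q : ℕ) (hq : q * (2 * N + 1) ≤ 2 * N' + 1) (i : Fin 3 → Fin q)
    (x : Site N) (j : Fin 3) :
    ((blockMap N N' q hq i x j : Fin (2 * N' + 1)) : ℕ) = (i j : ℕ) * (2 * N + 1) + (x j : ℕ) :=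
  rfl

theorem divmod_unique {L a b a' b' : ℕ} (hb : b < L) (hb' : b' < L)
    (h : a * L + b = a' * L + b') : a = a' ∧ b = b' := by
  have hL : 0 < L := by omega
  have h1 : (a * L + b) / L = a := by
    rw [Nat.add_comm, Nat.add_mul_div_right _ _ hL, Nat.div_eq_of_lt hb, zero_add]
  have h2 : (a' * L + b') / L = a' := by
    rw [Nat.add_comm, Nat.add_mul_div_right _ _ hL, Nat.div_eq_of_lt hb', zero_add]
  have ha : a = a' := by rw [← h1, ← h2, h]
  subst ha
  exact ⟨rfl, by omega⟩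

theorem blockMap_injective (N N' q : ℕ) (hq : q * (2 * N + 1) ≤ 2 * N' + 1) :
    Function.Injective
      (fun p : (Fin 3 → Fin q) × Site N => blockMap N N' q hq p.1 p.2) := by
  rintro ⟨i, x⟩ ⟨i', x'⟩ h
  have h1 : ∀ j, (i j : ℕ) = (i' j : ℕ) ∧ (x j : ℕ) = (x' j : ℕ) := by
    intro j
    have h2 := congrArg (fun f : Site N' => ((f j : Fin (2 * N' + 1)) : ℕ)) h
    simp only [blockMap_val] at h2
    exact divmod_unique (x j).isLt (x' j).isLt h2
  have hi : i = i' := funext fun j => Fin.ext (h1 j).1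
  have hx : x = x' := funext fun j => Fin.ext (h1 j).2
  rw [hi, hx]

theorem blockMap_injective' (N N' q : ℕ) (hq : q * (2 * N + 1) ≤ 2 * N' + 1)
    (i : Fin 3 → Fin q) : Function.Injective (blockMap N N' q hq i) := by
  intro x x' h
  have := blockMap_injective N N' q hq (a₁ := (i, x)) (a₂ := (i, x')) h
  exact (Prod.mk.inj this).2

/-- a bond of a block is a bond of the big cube -/
theorem blockMap_bond (N N' q : ℕ) (hq : q * (2 * N + 1) ≤ 2 * N' + 1) (i : Fin 3 → Fin q)
    (x : Site N) (j : Fin 3) (hx : (x j : ℕ) + 1 < 2 * N + 1) :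
    ((blockMap N N' q hq i x j : Fin (2 * N' + 1)) : ℕ) + 1 < 2 * N' + 1 := by
  rw [blockMap_val]
  have h1 : (i j : ℕ) + 1 ≤ q := (i j).isLt
  calc (i j : ℕ) * (2 * N + 1) + (x j : ℕ) + 1 < (i j : ℕ) * (2 * N + 1) + (2 * N + 1) := by omega
    _ = ((i j : ℕ) + 1) * (2 * N + 1) := by ring
    _ ≤ q * (2 * N + 1) := Nat.mul_le_mul_right _ h1
    _ ≤ 2 * N' + 1 := hq

theorem blockMap_nbr (N N' q : ℕ) (hq : q * (2 * N + 1) ≤ 2 * N' + 1) (i : Fin 3 → Fin q)
    (x : Site N) (j : Fin 3) (hx : (x j : ℕ) + 1 < 2 * N + 1) :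
    blockMap N N' q hq i (nbr x j) = nbr (blockMap N N' q hq i x) j := by
  have hb := blockMap_bond N N' q hq i x j hx
  have e1 : nbr x j = Function.update x j ⟨(x j : ℕ) + 1, hx⟩ := dif_pos hx
  have e2 : nbr (blockMap N N' q hq i x) j = Function.update (blockMap N N' q hq i x) j
      ⟨((blockMap N N' q hq i x j : Fin (2 * N' + 1)) : ℕ) + 1, hb⟩ := dif_pos hb
  rw [e1, e2]
  funext k
  by_cases hk : k = j
  · subst hk
    apply Fin.ext
    rw [blockMap_val, Function.update_self, Function.update_self]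
    simp only [blockMap_val]
    ring
  · apply Fin.ext
    rw [blockMap_val, Function.update_of_ne hk, Function.update_of_ne hk, blockMap_val]

/-- the bonds of the cube, as pairs (site, direction) -/
def EN (N : ℕ) : Finset (BondIdx N) := univ.filter fun b => (b.1 b.2 : ℕ) + 1 < 2 * N + 1

theorem mem_EN (N : ℕ) (b : BondIdx N) : b ∈ EN N ↔ (b.1 b.2 : ℕ) + 1 < 2 * N + 1 := by
  simp [EN]

theorem hamiltonian_eq_EN (d N : ℕ) :
    hamiltonian d N = -∑ b ∈ EN N, spinDot d b.1 (nbr b.1 b.2) := by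
  unfold hamiltonian EN
  rw [Finset.sum_filter, Fintype.sum_prod_type]

theorem card_slab (N : ℕ) (j : Fin 3) :
    (univ.filter fun x : Site N => (x j : ℕ) + 1 < 2 * N + 1).card = 2 * N * (2 * N + 1) ^ 2 := by
  have h1 : (univ.filter fun x : Site N => (x j : ℕ) + 1 < 2 * N + 1) =
      Fintype.piFinset (fun k : Fin 3 => if k = j then
        (univ.filter fun v : Fin (2 * N + 1) => (v : ℕ) < 2 * N) else univ) := by
    ext x
    simp only [mem_filter, mem_univ, true_and, Fintype.mem_piFinset]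
    constructor
    · intro hx k
      by_cases hk : k = j
      · subst hk
        simp only [if_true, mem_filter, mem_univ, true_and]
        omega
      · simp [hk]
    · intro hx
      have := hx j
      simp only [if_true, mem_filter, mem_univ, true_and] at this
      omega
  rw [h1, Fintype.card_piFinset]
  have h2 : (univ.filter fun v : Fin (2 * N + 1) => (v : ℕ) < 2 * N).card = 2 * N := by
    rw [Fin.card_filter_val_lt]; omega
  fin_cases j <;> simp [Fin.prod_univ_three, h2] <;> ring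

theorem card_EN (N : ℕ) : (EN N).card = 3 * (2 * N * (2 * N + 1) ^ 2) := by
  unfold EN
  rw [Finset.card_filter, Fintype.sum_prod_type_right]
  simp only [← Finset.card_filter, card_slab]
  simp

section Lift

variable {Λ₀ Λ : Type*} [Fintype Λ₀] [DecidableEq Λ₀] [Fintype Λ] [DecidableEq Λ] {d : ℕ}

theorem liftOp_spinDot (g : Λ₀ → Λ) (hg : Function.Injective g) (x y : Λ₀) :
    liftOp g (spinDot d x y) = spinDot d (g x) (g y) := by
  unfold spinDot
  rw [liftOp_add, liftOp_add, liftOp_mul g hg, liftOp_mul g hg, liftOp_mul g hg]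
  simp only [liftOp_siteOp g hg]

end Lift

/-- the field-shifted Hamiltonian `H_N - h M_N` -/
noncomputable def Kop (d N : ℕ) (h : ℝ) : Matrix (Site N → Fin d) (Site N → Fin d) ℂ :=
  hamiltonian d N - (h : ℂ) • magnetization d N

theorem liftOp_Kop (d N N' q : ℕ) (hq : q * (2 * N + 1) ≤ 2 * N' + 1) (h : ℝ)
    (i : Fin 3 → Fin q) :
    liftOp (blockMap N N' q hq i) (Kop d N h) =
      -∑ b ∈ EN N, spinDot d (blockMap N N' q hq i b.1) (nbr (blockMap N N' q hq i b.1) b.2)
        - (h : ℂ) • ∑ x : Site N, siteOp (blockMap N N' q hq i x) (spinZ d) := by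
  unfold Kop
  rw [liftOp_sub, liftOp_smul, hamiltonian_eq_EN, liftOp_neg, liftOp_sum]
  unfold magnetization
  rw [liftOp_sum]
  congr 1
  · congr 1
    refine Finset.sum_congr rfl fun b hb => ?_
    rw [liftOp_spinDot _ (blockMap_injective' N N' q hq i),
      blockMap_nbr N N' q hq i b.1 b.2 ((mem_EN N b).1 hb)]
  · congr 1
    refine Finset.sum_congr rfl fun x _ => ?_
    rw [liftOp_siteOp _ (blockMap_injective' N N' q hq i)]

/-- the bonds of the big cube that lie inside one of the blocks -/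
def EB (N N' q : ℕ) (hq : q * (2 * N + 1) ≤ 2 * N' + 1) : Finset (BondIdx N') :=
  ((univ : Finset (Fin 3 → Fin q)) ×ˢ EN N).image
    (fun p => (blockMap N N' q hq p.1 p.2.1, p.2.2))

/-- the sites of the big cube that lie in one of the blocks -/
def RG (N N' q : ℕ) (hq : q * (2 * N + 1) ≤ 2 * N' + 1) : Finset (Site N') :=
  (univ : Finset ((Fin 3 → Fin q) × Site N)).image (fun p => blockMap N N' q hq p.1 p.2)

theorem EB_inj (N N' q : ℕ) (hq : q * (2 * N + 1) ≤ 2 * N' + 1) :
    Function.Injective (fun p : (Fin 3 → Fin q) × BondIdx N =>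
      ((blockMap N N' q hq p.1 p.2.1, p.2.2) : BondIdx N')) := by
  rintro ⟨i, x, j⟩ ⟨i', x', j'⟩ h
  have h1 := (Prod.mk.inj h).1
  have h2 := (Prod.mk.inj h).2
  have h3 := blockMap_injective N N' q hq (a₁ := (i, x)) (a₂ := (i', x')) h1
  have h4 := Prod.mk.inj h3
  simp only at h2 h4
  rw [h4.1, h4.2, h2]

theorem EB_subset (N N' q : ℕ) (hq : q * (2 * N + 1) ≤ 2 * N' + 1) :
    EB N N' q hq ⊆ EN N' := by
  intro b hb
  unfold EB at hb
  rw [Finset.mem_image] at hb
  obtain ⟨p, hp, rfl⟩ := hb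
  rw [Finset.mem_product] at hp
  rw [mem_EN]
  exact blockMap_bond N N' q hq p.1 p.2.1 p.2.2 ((mem_EN N p.2).1 hp.2)

theorem card_EB (N N' q : ℕ) (hq : q * (2 * N + 1) ≤ 2 * N' + 1) :
    (EB N N' q hq).card = q ^ 3 * (EN N).card := by
  unfold EB
  rw [Finset.card_image_of_injective _ (EB_inj N N' q hq), Finset.card_product]
  simp

theorem card_RG (N N' q : ℕ) (hq : q * (2 * N + 1) ≤ 2 * N' + 1) :
    (RG N N' q hq).card = q ^ 3 * (2 * N + 1) ^ 3 := by
  unfold RG
  rw [Finset.card_image_of_injective _ (blockMap_injective N N' q hq)]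
  simp [Site]

/-- the sum of the block Hamiltonians, as an operator on the big cube -/
theorem sum_liftOp_Kop (d N N' q : ℕ) (hq : q * (2 * N + 1) ≤ 2 * N' + 1) (h : ℝ) :
    ∑ i : Fin 3 → Fin q, liftOp (blockMap N N' q hq i) (Kop d N h) =
      -∑ b ∈ EB N N' q hq, spinDot d b.1 (nbr b.1 b.2)
        - (h : ℂ) • ∑ x ∈ RG N N' q hq, siteOp x (spinZ d) := by
  simp only [liftOp_Kop]
  rw [Finset.sum_sub_distrib, Finset.sum_neg_distrib, ← Finset.smul_sum]
  congr 1
  · congr 1
    unfold EB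
    rw [Finset.sum_image (fun a _ b _ hab => EB_inj N N' q hq hab), Finset.sum_product]
  · congr 1
    unfold RG
    rw [Finset.sum_image (fun a _ b _ hab => blockMap_injective N N' q hq hab),
      Fintype.sum_prod_type]

theorem Kop_eq (d N : ℕ) (h : ℝ) :
    Kop d N h = -∑ b ∈ EN N, spinDot d b.1 (nbr b.1 b.2)
        - (h : ℂ) • ∑ x : Site N, siteOp x (spinZ d) := by
  unfold Kop
  rw [hamiltonian_eq_EN]
  rfl

/-- number of bonds of the big cube cut by the block decomposition -/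
def nCut (N N' q : ℕ) (hq : q * (2 * N + 1) ≤ 2 * N' + 1) : ℕ := (EN N' \ EB N N' q hq).card

/-- number of sites of the big cube outside the blocks -/
def nRest (N N' q : ℕ) (hq : q * (2 * N + 1) ≤ 2 * N' + 1) : ℕ := (univ \ RG N N' q hq).card

theorem nCut_eq (N N' q : ℕ) (hq : q * (2 * N + 1) ≤ 2 * N' + 1) :
    (nCut N N' q hq : ℝ) = (EN N').card - (q : ℝ) ^ 3 * (EN N).card := by
  unfold nCut
  rw [Finset.card_sdiff_of_subset (EB_subset N N' q hq), card_EB,
    Nat.cast_sub (by rw [← card_EB N N' q hq]; exact Finset.card_le_card (EB_subset N N' q hq))]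
  push_cast
  ring

theorem nRest_eq (N N' q : ℕ) (hq : q * (2 * N + 1) ≤ 2 * N' + 1) :
    (nRest N N' q hq : ℝ) = (2 * (N' : ℝ) + 1) ^ 3 - (q : ℝ) ^ 3 * (2 * (N : ℝ) + 1) ^ 3 := by
  unfold nRest
  rw [Finset.card_sdiff_of_subset (Finset.subset_univ _), card_RG,
    Nat.cast_sub (by rw [← card_RG N N' q hq]; exact Finset.card_le_card (Finset.subset_univ _))]
  simp [Site]

/-- the difference between the decoupled and the full Hamiltonian is bounded below -/
theorem Kop_diff_psd (d N N' q : ℕ) (hq : q * (2 * N + 1) ≤ 2 * N' + 1) (h : ℝ) :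
    ((∑ i : Fin 3 → Fin q, liftOp (blockMap N N' q hq i) (Kop d N h)) - Kop d N' h +
      ((kap d * (nCut N N' q hq : ℝ) + |h| * Sv d * (nRest N N' q hq : ℝ) : ℝ) : ℂ) •
        (1 : Matrix (Site N' → Fin d) (Site N' → Fin d) ℂ)).PosSemidef := by
  have h1 : (∑ i : Fin 3 → Fin q, liftOp (blockMap N N' q hq i) (Kop d N h)) - Kop d N' h +
      ((kap d * (nCut N N' q hq : ℝ) + |h| * Sv d * (nRest N N' q hq : ℝ) : ℝ) : ℂ) •
        (1 : Matrix (Site N' → Fin d) (Site N' → Fin d) ℂ) =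
      ∑ b ∈ EN N' \ EB N N' q hq, (spinDot d b.1 (nbr b.1 b.2) +
        ((kap d : ℝ) : ℂ) • (1 : Matrix (Site N' → Fin d) (Site N' → Fin d) ℂ)) +
      ∑ x ∈ univ \ RG N N' q hq, ((h : ℂ) • siteOp x (spinZ d) +
        ((|h| * Sv d : ℝ) : ℂ) • (1 : Matrix (Site N' → Fin d) (Site N' → Fin d) ℂ)) := by
    rw [sum_liftOp_Kop, Kop_eq d N' h, ← Finset.sum_sdiff (EB_subset N N' q hq),
      ← Finset.sum_sdiff (Finset.subset_univ (RG N N' q hq))]
    rw [Finset.sum_add_distrib, Finset.sum_add_distrib, Finset.sum_const, Finset.sum_const,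
      ← Finset.smul_sum]
    unfold nCut nRest
    simp only [← Nat.cast_smul_eq_nsmul ℂ, smul_smul, smul_add, smul_sub, smul_neg]
    push_cast
    module
  rw [h1]
  apply Matrix.PosSemidef.add
  · apply Matrix.posSemidef_sum
    intro b hb
    have hb' : b ∈ EN N' := (Finset.mem_sdiff.1 hb).1
    exact spinDot_lower d (bond_ok N' b ((mem_EN N' b).1 hb'))
  · apply Matrix.posSemidef_sum
    intro x _
    exact field_lower d x h

end Vale.Agent.Lib.P361
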