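import Mathlib

namespace Vale.Agent.Lib.P361

open Matrix

/-- Sites of the box `{-N,...,N}^3`: a site is `x : Fin 3 → Fin (2N+1)`, its `j`-th integer
coordinate being `(x j : ℤ) - N`. -/
abbrev Site (N : ℕ) : Type := Fin 3 → Fin (2 * N + 1)

/-- The matrix `S^3 = diag(S, S-1, ..., -S)` of spin `S = (d-1)/2` on `ℂ^d`. -/
noncomputable def spinZ (d : ℕ) : Matrix (Fin d) (Fin d) ℂ :=
  diagonal fun i => ((((d : ℝ) - 1) / 2 - ((i : ℕ) : ℝ) : ℝ) : ℂ)

/-- The raising matrix `S^+ = S^1 + i S^2` of spin `S = (d-1)/2`: its only nonzero entries are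
`(S^+) i (i+1) = sqrt ((i+1) (d-1-i))`. -/
noncomputable def spinPlus (d : ℕ) : Matrix (Fin d) (Fin d) ℂ :=
  fun i j => if (j : ℕ) = (i : ℕ) + 1 then
    ((Real.sqrt ((((i : ℕ) : ℝ) + 1) * ((d : ℝ) - 1 - ((i : ℕ) : ℝ))) : ℝ) : ℂ) else 0

/-- The lowering matrix `S^- = (S^+)^*`. -/
noncomputable def spinMinus (d : ℕ) : Matrix (Fin d) (Fin d) ℂ := (spinPlus d)ᴴ

/-- `S^1 = (S^+ + S^-)/2`. -/
noncomputable def spinX (d : ℕ) : Matrix (Fin d) (Fin d) ℂ :=
  (1 / 2 : ℂ) • (spinPlus d + spinMinus d)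

/-- `S^2 = (S^+ - S^-)/(2i)`. -/
noncomputable def spinY (d : ℕ) : Matrix (Fin d) (Fin d) ℂ :=
  (1 / (2 * Complex.I) : ℂ) • (spinPlus d - spinMinus d)

/-- The one-site matrix `a` acting at site `x` (tensored with the identity on all other sites);
the basis of the many-site space is indexed by configurations `σ : Λ → Fin d`. -/
def siteOp {Λ : Type*} [Fintype Λ] [DecidableEq Λ] {d : ℕ} (x : Λ)
    (a : Matrix (Fin d) (Fin d) ℂ) : Matrix (Λ → Fin d) (Λ → Fin d) ℂ :=
  fun σ τ => if ∀ y, y ≠ x → σ y = τ y then a (σ x) (τ x) else 0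

/-- The exchange term `S_x · S_y = S^1_x S^1_y + S^2_x S^2_y + S^3_x S^3_y`. -/
noncomputable def spinDot {Λ : Type*} [Fintype Λ] [DecidableEq Λ] (d : ℕ) (x y : Λ) :
    Matrix (Λ → Fin d) (Λ → Fin d) ℂ :=
  siteOp x (spinX d) * siteOp y (spinX d) + siteOp x (spinY d) * siteOp y (spinY d) +
    siteOp x (spinZ d) * siteOp y (spinZ d)

/-- The neighbour `x + e_j` of the site `x` (and `x` itself when `x + e_j` is outside the box). -/
def nbr {N : ℕ} (x : Site N) (j : Fin 3) : Site N :=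
  if h : (x j : ℕ) + 1 < 2 * N + 1 then Function.update x j ⟨(x j : ℕ) + 1, h⟩ else x

/-- The Heisenberg Hamiltonian `H_N = - ∑_{edges} S_x · S_y` on the box with free boundary
conditions: every nearest-neighbour edge is `{x, x + e_j}` for exactly one site `x` and one
direction `j` with `x + e_j` in the box, so each edge is counted once. -/
noncomputable def hamiltonian (d N : ℕ) : Matrix (Site N → Fin d) (Site N → Fin d) ℂ :=
  -∑ x : Site N, ∑ j : Fin 3,
      if (x j : ℕ) + 1 < 2 * N + 1 then spinDot d x (nbr x j) else 0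

/-- The total magnetization `M_N = ∑_x S^3_x`. -/
noncomputable def magnetization (d N : ℕ) : Matrix (Site N → Fin d) (Site N → Fin d) ℂ :=
  ∑ x : Site N, siteOp x (spinZ d)

/-- The finite-volume pressure `log Tr exp(-β (H_N - h M_N)) / (β |Λ_N|)`. -/
noncomputable def pressure (d N : ℕ) (β h : ℝ) : ℝ :=
  Real.log (trace (NormedSpace.exp
    ((((-β : ℝ)) : ℂ) • (hamiltonian d N - (h : ℂ) • magnetization d N)))).re /
    (β * ((2 * (N : ℝ) + 1) ^ 3))

end Vale.Agent.Lib.P361
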