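import Vale.Agent.Lib.P361.FiniteVolume
import Vale.Agent.Lib.P361.helper5.Analytic
import Vale.Agent.Lib.P361.helper61.Thermo

set_option linter.unusedSectionVars false
set_option linter.unusedSimpArgs false

namespace Vale.Agent.Lib.P361

open Matrix Finset Filter Topology
open scoped ComplexOrder

/-- diagonal entries of the total magnetization -/
noncomputable def wmag (d N : ℕ) : (Site N → Fin d) → ℝ :=
  fun σ => ∑ x : Site N, (((d : ℝ) - 1) / 2 - ((σ x : ℕ) : ℝ))

theorem magnetization_diag (d N : ℕ) :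
    magnetization d N = diagonal (fun σ => (wmag d N σ : ℂ)) := by
  unfold magnetization spinZ
  simp only [siteOp_diagonal]
  ext σ τ
  rw [Matrix.sum_apply]
  by_cases hστ : σ = τ
  · subst hστ
    simp only [diagonal_apply_eq, wmag]
    push_cast
    rfl
  · simp [diagonal_apply_ne _ hστ]

theorem hamiltonian_comm_magnetization (d N : ℕ) :
    hamiltonian d N * magnetization d N = magnetization d N * hamiltonian d N := by
  have h := (spinSys (Λ := Site N) d).cm_H_M (fun i : BondIdx N => (i.1 i.2 : ℕ) + 1 < 2 * N + 1)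
    (fun i => i.1) (fun i => nbr i.1 i.2)
  rw [← hamiltonian_eq, ← magnetization_eq, cm, sub_eq_zero] at h
  exact h

theorem hamiltonian_hermitian (d N : ℕ) : (hamiltonian d N).IsHermitian := by
  rw [hamiltonian_eq]
  exact (spinSys (Λ := Site N) d).Hab_hermitian _ _ _ (bond_ok N)

theorem pressure_eq (d N : ℕ) (β h : ℝ) :
    pressure d N β h = Real.log (Zf d N β h) / (β * ((2 * (N : ℝ) + 1) ^ 3)) := rfl

/-- convexity (Gibbs variational principle): the slope of the pressure between `0` and `h` is at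
most the magnetization at `h`. -/
theorem concrete_conv (d N : ℕ) (hd : 0 < d) (β h : ℝ) (hβ : 0 < β) (hh : 0 < h) :
    pressure d N β h - pressure d N β 0 ≤ h * mN d N β h := by
  have hne : Nonempty (Site N → Fin d) := ⟨fun _ => ⟨0, hd⟩⟩
  have hcomm := hamiltonian_comm_magnetization d N
  rw [magnetization_diag] at hcomm
  obtain ⟨hZh, hZ0, hlog⟩ := pressure_slope (hamiltonian d N) (hamiltonian_hermitian d N)
    (wmag d N) hcomm β h hβ hh
  rw [← magnetization_diag] at hZh hZ0 hlog
  have hV : (0 : ℝ) < (2 * (N : ℝ) + 1) ^ 3 := by positivity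
  rw [pressure_eq, pressure_eq]
  have e1 : (trace (NormedSpace.exp (((-β : ℝ) : ℂ) •
      (hamiltonian d N - (h : ℂ) • magnetization d N)))).re = Zf d N β h := rfl
  have e2 : (trace (NormedSpace.exp (((-β : ℝ) : ℂ) •
      (hamiltonian d N - ((0 : ℝ) : ℂ) • magnetization d N)))).re = Zf d N β 0 := rfl
  have e3 : (trace (NormedSpace.exp (((-β : ℝ) : ℂ) •
      (hamiltonian d N - (h : ℂ) • magnetization d N)) * magnetization d N)).re = muf d N β h := rfl
  rw [e1, e2, e3] at hlog
  rw [e1] at hZh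
  unfold mN
  generalize Zf d N β h = Z at *
  generalize Zf d N β 0 = Z0 at *
  generalize muf d N β h = μ at *
  generalize (2 * (N : ℝ) + 1) ^ 3 = V at *
  rw [← sub_div, div_le_iff₀ (mul_pos hβ hV)]
  calc Real.log Z - Real.log Z0 ≤ β * h * (μ / Z) := hlog
    _ = h * (μ / (V * Z)) * (β * V) := by field_simp

/-- **One-sided Bloch law** for the spin-`S = (d-1)/2` Heisenberg ferromagnet on `ℤ^3`. -/
theorem bloch_upper (d : ℕ) (hd : 2 ≤ d) (p : ℝ → ℝ → ℝ) (m : ℝ → ℝ)
    (hp : ∀ β, 0 < β → ∀ h, Tendsto (fun N => pressure d N β h) atTop (𝓝 (p β h)))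
    (hm : ∀ β, 0 < β → HasDerivWithinAt (p β) (m β) (Set.Ici 0) 0) :
    ∀ c, c < (riemannZeta (3 / 2)).re /
        (8 * Real.pi ^ (3 / 2 : ℝ) * (((d : ℝ) - 1) / 2) ^ (3 / 2 : ℝ)) →
      ∀ᶠ β in atTop, c ≤ β ^ (3 / 2 : ℝ) * (((d : ℝ) - 1) / 2 - m β) := by
  have hSv : 0 < Sv d := by
    unfold Sv
    have : (2 : ℝ) ≤ (d : ℝ) := by exact_mod_cast hd
    linarith
  exact bloch_analytic (Sv d) hSv (fun N β h => pressure d N β h) (fun N β h => mN d N β h)
    (fun N β h hβ hh => concrete_conv d N (by omega) β h hβ hh)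
    (fun N β h hβ hh hm => concrete_fv d N hd β h hβ hh hm) p m hp hm

end Vale.Agent.Lib.P361
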