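import Vale.Agent.Lib.P361.Defs

namespace Vale.Agent.Lib.P361

open Matrix

open Classical in
/-- The matrix `a` on the configurations of `Λ₀`, acting on the configurations of `Λ` through the
map `g : Λ₀ → Λ`, as the identity on the sites outside the range of `g`
(`a ⊗ 1` when `g` is injective). -/
noncomputable def liftOp {Λ₀ Λ : Type*} {d : ℕ} (g : Λ₀ → Λ)
    (a : Matrix (Λ₀ → Fin d) (Λ₀ → Fin d) ℂ) : Matrix (Λ → Fin d) (Λ → Fin d) ℂ :=
  fun σ τ => if ∀ y, y ∉ Set.range g → σ y = τ y then a (σ ∘ g) (τ ∘ g) else 0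

end Vale.Agent.Lib.P361
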