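import Vale.Agent.Lib.P361.Cubes
import Vale.Agent.Lib.P361.helper5.FinalLimsup

set_option linter.unusedSectionVars false
set_option linter.unusedSimpArgs false

namespace Vale.Agent.Lib.P361

open Matrix Finset Filter Topology
open scoped ComplexOrder

/-- exponential of a matrix shifted by a real multiple of the identity -/
theorem exp_sub_scalar {n : Type*} [Fintype n] [DecidableEq n] (X : Matrix n n ℂ) (c : ℝ) :
    NormedSpace.exp (X - ((c : ℝ) : ℂ) • (1 : Matrix n n ℂ)) =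
      ((Real.exp (-c) : ℝ) : ℂ) • NormedSpace.exp X := by
  have h1 : X - ((c : ℝ) : ℂ) • (1 : Matrix n n ℂ) = X + diagonal (fun _ => ((-c : ℝ) : ℂ)) := by
    rw [sub_eq_add_neg, Matrix.smul_one_eq_diagonal]
    congr 1
    ext i j
    by_cases hij : i = j
    · subst hij; simp
    · simp [hij]
  have h2 : Commute X (diagonal (fun _ : n => ((-c : ℝ) : ℂ))) := by
    rw [← Matrix.smul_one_eq_diagonal]
    exact Commute.smul_right (Commute.one_right X) _
  rw [h1, Matrix.exp_add_of_commute _ _ h2, Matrix.exp_diagonal]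
  have h3 : NormedSpace.exp (fun _ : n => ((-c : ℝ) : ℂ)) =
      fun _ : n => ((Real.exp (-c) : ℝ) : ℂ) := by
    funext i
    rw [Pi.coe_exp, ← Complex.exp_eq_exp_ℂ, Complex.ofReal_exp]
  rw [h3, ← Matrix.smul_one_eq_diagonal, Matrix.mul_smul, Matrix.mul_one]

/-- the trace of the exponential of a real multiple of a Hermitian matrix is real -/
theorem trace_exp_real {ι : Type*} [Fintype ι] [DecidableEq ι]
    (K : Matrix ι ι ℂ) (hK : K.IsHermitian) (c : ℝ) :
    trace (NormedSpace.exp ((c : ℂ) • K)) =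
      (((trace (NormedSpace.exp ((c : ℂ) • K))).re : ℝ) : ℂ) := by
  apply Complex.ext
  · simp
  · rw [exp_smul_hermitian K hK c, Matrix.trace_mul_cycle, Unitary.coe_star_mul_self,
      Matrix.one_mul, Matrix.trace_diagonal, Complex.im_sum]
    exact Finset.sum_eq_zero fun i _ => Complex.ofReal_im _

theorem Zf_eq_Kop (d N : ℕ) (β h : ℝ) :
    Zf d N β h = (trace (NormedSpace.exp (((-β : ℝ) : ℂ) • Kop d N h))).re := rfl

theorem Kop_hermitian (d N : ℕ) (h : ℝ) : (Kop d N h).IsHermitian := K_hermitian_c d N h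

/-- the partition function of the big cube dominates the product of the partition functions of
the blocks, up to a boundary factor -/
theorem Zf_block_ge (d N N' q : ℕ) (hd : 0 < d) (hq : q * (2 * N + 1) ≤ 2 * N' + 1) (β h : ℝ)
    (hβ : 0 < β) :
    Real.exp (-(β * (kap d * (nCut N N' q hq : ℝ) + |h| * Sv d * (nRest N N' q hq : ℝ)))) *
      Zf d N β h ^ (q ^ 3) ≤ Zf d N' β h := by
  set c : ℝ := β * (kap d * (nCut N N' q hq : ℝ) + |h| * Sv d * (nRest N N' q hq : ℝ)) with hc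
  set KB : Matrix (Site N' → Fin d) (Site N' → Fin d) ℂ :=
    ∑ i : Fin 3 → Fin q, liftOp (blockMap N N' q hq i) (Kop d N h) with hKB
  set B : Matrix (Site N' → Fin d) (Site N' → Fin d) ℂ := ((-β : ℝ) : ℂ) • Kop d N' h with hB
  set A : Matrix (Site N' → Fin d) (Site N' → Fin d) ℂ :=
    ((-β : ℝ) : ℂ) • KB - ((c : ℝ) : ℂ) • (1 : Matrix (Site N' → Fin d) (Site N' → Fin d) ℂ)
    with hA
  have hBH : B.IsHermitian := by
    unfold Matrix.IsHermitian
    rw [hB, conjTranspose_smul, (Kop_hermitian d N' h).eq]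
    congr 1
    exact Complex.conj_ofReal _
  have hpsd := Kop_diff_psd d N N' q hq h
  have hBA : (B - A).PosSemidef := by
    have e : B - A = (β : ℝ) • (KB - Kop d N' h +
        ((kap d * (nCut N N' q hq : ℝ) + |h| * Sv d * (nRest N N' q hq : ℝ) : ℝ) : ℂ) •
          (1 : Matrix (Site N' → Fin d) (Site N' → Fin d) ℂ)) := by
      rw [hB, hA, hc, ← Complex.coe_smul]
      push_cast
      module
    rw [e]
    exact hpsd.smul hβ.le
  have hAH : A.IsHermitian := by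
    have e : A = B - (B - A) := by abel
    rw [e]
    exact hBH.sub hBA.isHermitian
  have hmono := trace_exp_mono A B hAH hBH hBA
  have hZ' : (trace (NormedSpace.exp B)).re = Zf d N' β h := rfl
  have hKB' : ((-β : ℝ) : ℂ) • KB =
      ∑ i : Fin 3 → Fin q, liftOp (blockMap N N' q hq i) (((-β : ℝ) : ℂ) • Kop d N h) := by
    rw [hKB, Finset.smul_sum]
    refine Finset.sum_congr rfl fun i _ => ?_
    rw [liftOp_smul]
  have htr : trace (NormedSpace.exp (((-β : ℝ) : ℂ) • KB)) =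
      (d : ℂ) ^ (Fintype.card (Site N') - Fintype.card (Fin 3 → Fin q) * Fintype.card (Site N)) *
        (trace (NormedSpace.exp (((-β : ℝ) : ℂ) • Kop d N h))) ^ Fintype.card (Fin 3 → Fin q) := by
    rw [hKB']
    exact trace_exp_blocks (fun i => blockMap N N' q hq i) (blockMap_injective N N' q hq) _
  have hcard : Fintype.card (Fin 3 → Fin q) = q ^ 3 := by simp
  have hZ : (trace (NormedSpace.exp A)).re =
      Real.exp (-c) * ((d : ℝ) ^ (Fintype.card (Site N') -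
        Fintype.card (Fin 3 → Fin q) * Fintype.card (Site N)) * Zf d N β h ^ (q ^ 3)) := by
    rw [hA, exp_sub_scalar, Matrix.trace_smul, htr, trace_exp_real _ (Kop_hermitian d N h) (-β),
      ← Zf_eq_Kop, hcard, smul_eq_mul]
    rw [← Complex.ofReal_natCast, ← Complex.ofReal_pow, ← Complex.ofReal_pow, ← Complex.ofReal_mul,
      ← Complex.ofReal_mul, Complex.ofReal_re]
  rw [hZ, hZ'] at hmono
  have hZpos : 0 < Zf d N β h := Zf_pos d N hd β h
  have hd1 : (1 : ℝ) ≤ (d : ℝ) := by exact_mod_cast hd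
  have hpow : (1 : ℝ) ≤ (d : ℝ) ^ (Fintype.card (Site N') -
      Fintype.card (Fin 3 → Fin q) * Fintype.card (Site N)) := one_le_pow₀ hd1
  have hZq : 0 ≤ Zf d N β h ^ (q ^ 3) := (pow_pos hZpos _).le
  calc Real.exp (-c) * Zf d N β h ^ (q ^ 3)
      ≤ Real.exp (-c) * ((d : ℝ) ^ (Fintype.card (Site N') -
        Fintype.card (Fin 3 → Fin q) * Fintype.card (Site N)) * Zf d N β h ^ (q ^ 3)) := by
        apply mul_le_mul_of_nonneg_left _ (Real.exp_pos _).le
        nlinarith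
    _ ≤ Zf d N' β h := hmono

theorem logZ_block (d N N' q : ℕ) (hd : 0 < d) (hq : q * (2 * N + 1) ≤ 2 * N' + 1) (β h : ℝ)
    (hβ : 0 < β) :
    (q : ℝ) ^ 3 * Real.log (Zf d N β h) -
      β * (kap d * (nCut N N' q hq : ℝ) + |h| * Sv d * (nRest N N' q hq : ℝ)) ≤
      Real.log (Zf d N' β h) := by
  have h1 := Zf_block_ge d N N' q hd hq β h hβ
  have hZpos : 0 < Zf d N β h := Zf_pos d N hd β h
  have h2 := Real.log_le_log (mul_pos (Real.exp_pos _) (pow_pos hZpos _)) h1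
  rw [Real.log_mul (Real.exp_pos _).ne' (pow_pos hZpos _).ne', Real.log_exp, Real.log_pow] at h2
  push_cast at h2
  linarith

/-- boundary-corrected pressure -/
noncomputable def Qf (d : ℕ) (β h : ℝ) (N : ℕ) : ℝ :=
  pressure d N β h + kap d * (3 * (1 - 1 / (2 * (N : ℝ) + 1))) + |h| * Sv d

theorem Qf_block (d : ℕ) (hd : 0 < d) (β h : ℝ) (hβ : 0 < β) (N N' : ℕ) :
    (((((2 * N' + 1) / (2 * N + 1) : ℕ) : ℝ) * (2 * (N : ℝ) + 1)) / (2 * (N' : ℝ) + 1)) ^ 3 *
      Qf d β h N ≤ Qf d β h N' := by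
  have hq : (2 * N' + 1) / (2 * N + 1) * (2 * N + 1) ≤ 2 * N' + 1 := Nat.div_mul_le_self _ _
  have h1 := logZ_block d N N' ((2 * N' + 1) / (2 * N + 1)) hd hq β h hβ
  rw [nCut_eq, nRest_eq, card_EN, card_EN] at h1
  generalize (((2 * N' + 1) / (2 * N + 1) : ℕ) : ℝ) = qr at h1 ⊢
  have hL : (0 : ℝ) < 2 * (N : ℝ) + 1 := by positivity
  have hL' : (0 : ℝ) < 2 * (N' : ℝ) + 1 := by positivity
  have e : Qf d β h N' - (qr * (2 * (N : ℝ) + 1) / (2 * (N' : ℝ) + 1)) ^ 3 * Qf d β h N =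
      (Real.log (Zf d N' β h) - (qr ^ 3 * Real.log (Zf d N β h) -
        β * (kap d * ((3 * (2 * (N' : ℝ) * (2 * (N' : ℝ) + 1) ^ 2)) -
          qr ^ 3 * (3 * (2 * (N : ℝ) * (2 * (N : ℝ) + 1) ^ 2))) +
          |h| * Sv d * ((2 * (N' : ℝ) + 1) ^ 3 - qr ^ 3 * (2 * (N : ℝ) + 1) ^ 3)))) /
        (β * (2 * (N' : ℝ) + 1) ^ 3) := by
    unfold Qf
    rw [pressure_eq, pressure_eq]
    field_simp
    ring
  have h2 : 0 ≤ (Real.log (Zf d N' β h) - (qr ^ 3 * Real.log (Zf d N β h) -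
        β * (kap d * ((3 * (2 * (N' : ℝ) * (2 * (N' : ℝ) + 1) ^ 2)) -
          qr ^ 3 * (3 * (2 * (N : ℝ) * (2 * (N : ℝ) + 1) ^ 2))) +
          |h| * Sv d * ((2 * (N' : ℝ) + 1) ^ 3 - qr ^ 3 * (2 * (N : ℝ) + 1) ^ 3)))) /
        (β * (2 * (N' : ℝ) + 1) ^ 3) := by
    apply div_nonneg _ (by positivity)
    push_cast at h1
    linarith
  linarith

theorem Qf_bdd (d : ℕ) (hd : 0 < d) (β h : ℝ) (hβ : 0 < β) : ∃ C, ∀ N, |Qf d β h N| ≤ C := by
  obtain ⟨C, hC⟩ := pressure_bdd d hd β hβ h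
  refine ⟨C + kap d * 3 + |h| * Sv d, fun N => ?_⟩
  have hk := kap_nonneg d
  have hS : 0 ≤ Sv d := by
    unfold Sv
    have : (1 : ℝ) ≤ (d : ℝ) := by exact_mod_cast hd
    linarith
  have hL : (0 : ℝ) < 2 * (N : ℝ) + 1 := by positivity
  have h1 : 0 ≤ 1 / (2 * (N : ℝ) + 1) := by positivity
  have h2 : 1 / (2 * (N : ℝ) + 1) ≤ 1 := by
    rw [div_le_one hL]
    have : (0 : ℝ) ≤ (N : ℝ) := by positivity
    linarith
  have h3 := abs_le.1 (hC N)
  have h4 : 0 ≤ |h| * Sv d := mul_nonneg (abs_nonneg _) hS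
  unfold Qf
  rw [abs_le]
  constructor
  · nlinarith [mul_nonneg hk (by linarith : (0 : ℝ) ≤ 3 * (1 - 1 / (2 * (N : ℝ) + 1)))]
  · nlinarith [mul_nonneg hk h1]

/-- **Existence of the thermodynamic limit** of the pressure along the cubes. -/
theorem pressure_tendsto (d : ℕ) (hd : 0 < d) (β h : ℝ) (hβ : 0 < β) :
    ∃ p, Tendsto (fun N => pressure d N β h) atTop (𝓝 p) := by
  obtain ⟨q, hq⟩ := tendsto_of_block_ineq (Qf d β h) (Qf_bdd d hd β h hβ)
    (fun N N' => Qf_block d hd β h hβ N N')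
  have hd0 : Tendsto (fun N : ℕ => 1 / (2 * (N : ℝ) + 1)) atTop (𝓝 0) := by
    apply Filter.Tendsto.div_atTop tendsto_const_nhds
    apply Filter.tendsto_atTop_add_const_right
    exact Filter.Tendsto.const_mul_atTop (by norm_num) tendsto_natCast_atTop_atTop
  have h1 : Tendsto (fun N : ℕ => Qf d β h N - kap d * (3 * (1 - 1 / (2 * (N : ℝ) + 1))) -
      |h| * Sv d) atTop (𝓝 (q - kap d * (3 * (1 - 0)) - |h| * Sv d)) :=
    (hq.sub ((tendsto_const_nhds.sub hd0).const_mul 3 |>.const_mul (kap d))).sub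
      tendsto_const_nhds
  refine ⟨q - kap d * (3 * (1 - 0)) - |h| * Sv d, h1.congr fun N => ?_⟩
  unfold Qf
  ring

/-- **One-sided Bloch law**, with the existence of the thermodynamic limit and of the
spontaneous magnetization proved. -/
theorem bloch_upper_full (d : ℕ) (hd : 2 ≤ d) :
    ∃ p : ℝ → ℝ → ℝ, ∃ m : ℝ → ℝ,
      (∀ β, 0 < β → ∀ h, Tendsto (fun N => pressure d N β h) atTop (𝓝 (p β h))) ∧
      (∀ β, 0 < β → HasDerivWithinAt (p β) (m β) (Set.Ici 0) 0) ∧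
      ∀ c, c < (riemannZeta (3 / 2)).re /
          (8 * Real.pi ^ (3 / 2 : ℝ) * (((d : ℝ) - 1) / 2) ^ (3 / 2 : ℝ)) →
        ∀ᶠ β in atTop, c ≤ β ^ (3 / 2 : ℝ) * (((d : ℝ) - 1) / 2 - m β) := by
  obtain ⟨m, hm1, hm2⟩ := bloch_upper_unconditional d hd
  refine ⟨fun β h => limsup (fun N => pressure d N β h) atTop, m, ?_, hm1, hm2⟩
  intro β hβ h
  obtain ⟨p, hp⟩ := pressure_tendsto d (by omega) β h hβ
  show Tendsto (fun N => pressure d N β h) atTop
    (𝓝 (limsup (fun N => pressure d N β h) atTop))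
  rw [hp.limsup_eq]
  exact hp

end Vale.Agent.Lib.P361
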