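import Vale.Agent.Lib.P361.Model

set_option linter.unusedSectionVars false
set_option linter.unusedSimpArgs false

namespace Vale.Agent.Lib.P361

open Matrix Finset
open scoped ComplexOrder

variable {Λ : Type*} [Fintype Λ] [DecidableEq Λ] (d : ℕ)

/-- constant in the lower bound `S_x · S_y ≥ -κ` -/
noncomputable def kap (d : ℕ) : ℝ := Sv d ^ 2 + (d : ℝ) ^ 2 / 4

theorem kap_nonneg (d : ℕ) : 0 ≤ kap d := by
  unfold kap
  positivity

/-- `d^2/4 - S^- S^+ ≥ 0` at one site -/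
theorem cQ1 (x : Λ) :
    ((((d : ℝ) ^ 2 / 4 : ℝ) : ℂ) • (1 : Matrix (Λ → Fin d) (Λ → Fin d) ℂ) -
      (cSp d x)ᴴ * cSp d x).PosSemidef := by
  have h : ((((d : ℝ) ^ 2 / 4 : ℝ) : ℂ) • (1 : Matrix (Λ → Fin d) (Λ → Fin d) ℂ) -
      (cSp d x)ᴴ * cSp d x) =
      siteOp x ((((d : ℝ) ^ 2 / 4 : ℝ) : ℂ) • (1 : Matrix (Fin d) (Fin d) ℂ) -
        spinMinus d * spinPlus d) := by
    rw [cSp_conjTranspose]
    unfold cSp spinMinus
    rw [siteOp_sub, siteOp_smul, siteOp_one, siteOp_mul]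
  rw [h, spinMinus_mul_spinPlus, Matrix.smul_one_eq_diagonal, Matrix.diagonal_sub, siteOp_diagonal]
  apply Matrix.PosSemidef.diagonal
  intro σ
  simp only [Pi.zero_apply]
  rw [← Complex.ofReal_sub, Complex.zero_le_real]
  nlinarith [sq_nonneg ((d : ℝ) / 2 - (((σ x : Fin d) : ℕ) : ℝ))]

/-- `S^2 + S^3_x S^3_y ≥ 0` -/
theorem cQ2 (x y : Λ) :
    ((((Sv d ^ 2 : ℝ)) : ℂ) • (1 : Matrix (Λ → Fin d) (Λ → Fin d) ℂ) +
      cSz d x * cSz d y).PosSemidef := by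
  unfold cSz spinZ
  rw [siteOp_diagonal, siteOp_diagonal, diagonal_mul_diagonal, Matrix.smul_one_eq_diagonal,
    Matrix.diagonal_add]
  apply Matrix.PosSemidef.diagonal
  intro σ
  simp only [Pi.zero_apply]
  rw [← Complex.ofReal_mul, ← Complex.ofReal_add, Complex.zero_le_real]
  have ha : (0 : ℝ) ≤ (((σ x : Fin d) : ℕ) : ℝ) := by positivity
  have hb : (0 : ℝ) ≤ (((σ y : Fin d) : ℕ) : ℝ) := by positivity
  have ha' := fin_sub_nonneg (σ x)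
  have hb' := fin_sub_nonneg (σ y)
  unfold Sv
  nlinarith [mul_nonneg ha hb', mul_nonneg hb ha', mul_nonneg ha hb, mul_nonneg ha' hb']

/-- lower bound for an exchange term: `S_x · S_y + κ ≥ 0` -/
theorem spinDot_lower {x y : Λ} (hxy : x ≠ y) :
    (spinDot d x y + ((kap d : ℝ) : ℂ) • (1 : Matrix (Λ → Fin d) (Λ → Fin d) ℂ)).PosSemidef := by
  have hpm : cSp d x * (cSp d y)ᴴ = (cSp d y)ᴴ * cSp d x := (spinSys (Λ := Λ) d).pm x y hxy
  have h1 : spinDot d x y + ((kap d : ℝ) : ℂ) • (1 : Matrix (Λ → Fin d) (Λ → Fin d) ℂ) =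
      (1 / 2 : ℝ) • ((cSp d x + cSp d y)ᴴ * (cSp d x + cSp d y)) +
      ((((Sv d ^ 2 : ℝ)) : ℂ) • (1 : Matrix (Λ → Fin d) (Λ → Fin d) ℂ) + cSz d x * cSz d y) +
      (1 / 2 : ℝ) • ((((d : ℝ) ^ 2 / 4 : ℝ) : ℂ) • (1 : Matrix (Λ → Fin d) (Λ → Fin d) ℂ) -
        (cSp d x)ᴴ * cSp d x) +
      (1 / 2 : ℝ) • ((((d : ℝ) ^ 2 / 4 : ℝ) : ℂ) • (1 : Matrix (Λ → Fin d) (Λ → Fin d) ℂ) -
        (cSp d y)ᴴ * cSp d y) := by
    rw [spinDot_eq_bond]
    unfold bond kap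
    rw [hpm, conjTranspose_add]
    simp only [Matrix.add_mul, Matrix.mul_add]
    rw [← Complex.coe_smul, ← Complex.coe_smul, ← Complex.coe_smul]
    push_cast
    module
  rw [h1]
  refine Matrix.PosSemidef.add (Matrix.PosSemidef.add (Matrix.PosSemidef.add ?_ ?_) ?_) ?_
  · exact (Matrix.posSemidef_conjTranspose_mul_self _).smul (by norm_num : (0 : ℝ) ≤ 1 / 2)
  · exact cQ2 d x y
  · exact (cQ1 d x).smul (by norm_num : (0 : ℝ) ≤ 1 / 2)
  · exact (cQ1 d y).smul (by norm_num : (0 : ℝ) ≤ 1 / 2)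

/-- lower bound for a field term: `h S^3_x + |h| S ≥ 0` -/
theorem field_lower (x : Λ) (h : ℝ) :
    ((h : ℂ) • siteOp x (spinZ d) +
      ((|h| * Sv d : ℝ) : ℂ) • (1 : Matrix (Λ → Fin d) (Λ → Fin d) ℂ)).PosSemidef := by
  unfold spinZ
  rw [siteOp_diagonal, Matrix.smul_one_eq_diagonal, ← Matrix.diagonal_smul, Matrix.diagonal_add]
  apply Matrix.PosSemidef.diagonal
  intro σ
  simp only [Pi.zero_apply, Pi.smul_apply, smul_eq_mul]
  rw [← Complex.ofReal_mul, ← Complex.ofReal_add, Complex.zero_le_real]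
  have ha : (0 : ℝ) ≤ (((σ x : Fin d) : ℕ) : ℝ) := by positivity
  have ha' := fin_sub_nonneg (σ x)
  unfold Sv
  rcases abs_cases h with ⟨h1, h2⟩ | ⟨h1, h2⟩
  · rw [h1]; nlinarith
  · rw [h1]; nlinarith

end Vale.Agent.Lib.P361
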