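import Mathlib

namespace Vale.Agent.Lib.P361

open Finset Matrix

/-- Core real inequality behind the energy-entropy balance (Roepstorff) inequality. -/
theorem roep_core {ι : Type*} [Fintype ι] (u v c : ι → ℝ) (hc : ∀ k, 0 ≤ c k) (β : ℝ)
    (hab : ∑ k, Real.exp (-β * u k) * c k < ∑ k, Real.exp (-β * v k) * c k) :
    ∑ k, Real.exp (-β * v k) * c k ≤
      (∑ k, Real.exp (-β * u k) * c k) *
        Real.exp (β * (∑ k, (Real.exp (-β * u k) - Real.exp (-β * v k)) * (v k - u k) * c k) /
          ((∑ k, Real.exp (-β * v k) * c k) - ∑ k, Real.exp (-β * u k) * c k)) := by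
  classical
  set a := ∑ k, Real.exp (-β * u k) * c k with ha
  set b := ∑ k, Real.exp (-β * v k) * c k with hb
  set dd := ∑ k, (Real.exp (-β * u k) - Real.exp (-β * v k)) * (v k - u k) * c k with hdd
  have ha0 : 0 ≤ a := Finset.sum_nonneg fun k _ => mul_nonneg (Real.exp_pos _).le (hc k)
  have hb0 : 0 < b := lt_of_le_of_lt ha0 hab
  have hapos : 0 < a := by
    by_contra hcon
    have ha' : a = 0 := le_antisymm (not_lt.mp hcon) ha0
    have hz : ∀ k ∈ (Finset.univ : Finset ι), Real.exp (-β * u k) * c k = 0 :=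
      (Finset.sum_eq_zero_iff_of_nonneg fun k _ => mul_nonneg (Real.exp_pos _).le (hc k)).mp ha'
    have hck : ∀ k, c k = 0 := fun k => by
      have := hz k (Finset.mem_univ k)
      rcases mul_eq_zero.mp this with h | h
      · exact absurd h (Real.exp_pos _).ne'
      · exact h
    have : b = 0 := by
      rw [hb]; exact Finset.sum_eq_zero fun k _ => by rw [hck k, mul_zero]
    linarith
  set e1 := ∑ k, Real.exp (-β * u k) * (v k - u k) * c k with he1
  set e2 := ∑ k, Real.exp (-β * v k) * (u k - v k) * c k with he2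
  have hdd' : dd = e1 + e2 := by
    rw [hdd, he1, he2, ← Finset.sum_add_distrib]
    exact Finset.sum_congr rfl fun k _ => by ring
  -- Jensen 1
  have J1 : Real.exp (-β * e1 / a) ≤ b / a := by
    have := ConvexOn.map_sum_le (t := (Finset.univ : Finset ι)) convexOn_exp
      (w := fun k => Real.exp (-β * u k) * c k / a) (p := fun k => -β * (v k - u k))
      (fun k _ => div_nonneg (mul_nonneg (Real.exp_pos _).le (hc k)) hapos.le)
      (by rw [← Finset.sum_div, ← ha]; exact div_self hapos.ne')
      (fun k _ => Set.mem_univ _)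
    have h1 : ∑ k, (Real.exp (-β * u k) * c k / a) • (-β * (v k - u k)) = -β * e1 / a := by
      rw [he1, Finset.mul_sum, Finset.sum_div]
      exact Finset.sum_congr rfl fun k _ => by simp only [smul_eq_mul]; ring
    have h2 : ∑ k, (Real.exp (-β * u k) * c k / a) • Real.exp (-β * (v k - u k)) = b / a := by
      rw [hb, Finset.sum_div]
      refine Finset.sum_congr rfl fun k _ => ?_
      simp only [smul_eq_mul]
      have : Real.exp (-β * u k) * Real.exp (-β * (v k - u k)) = Real.exp (-β * v k) := by
        rw [← Real.exp_add]; congr 1; ring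
      rw [← this]; ring
    rw [h1, h2] at this
    exact this
  have J2 : Real.exp (-β * e2 / b) ≤ a / b := by
    have := ConvexOn.map_sum_le (t := (Finset.univ : Finset ι)) convexOn_exp
      (w := fun k => Real.exp (-β * v k) * c k / b) (p := fun k => -β * (u k - v k))
      (fun k _ => div_nonneg (mul_nonneg (Real.exp_pos _).le (hc k)) hb0.le)
      (by rw [← Finset.sum_div, ← hb]; exact div_self hb0.ne')
      (fun k _ => Set.mem_univ _)
    have h1 : ∑ k, (Real.exp (-β * v k) * c k / b) • (-β * (u k - v k)) = -β * e2 / b := by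
      rw [he2, Finset.mul_sum, Finset.sum_div]
      exact Finset.sum_congr rfl fun k _ => by simp only [smul_eq_mul]; ring
    have h2 : ∑ k, (Real.exp (-β * v k) * c k / b) • Real.exp (-β * (u k - v k)) = a / b := by
      rw [ha, Finset.sum_div]
      refine Finset.sum_congr rfl fun k _ => ?_
      simp only [smul_eq_mul]
      have : Real.exp (-β * v k) * Real.exp (-β * (u k - v k)) = Real.exp (-β * u k) := by
        rw [← Real.exp_add]; congr 1; ring
      rw [← this]; ring
    rw [h1, h2] at this
    exact this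
  -- logs
  set t := Real.log (b / a) with ht
  have hba : 0 < b / a := div_pos hb0 hapos
  have hab' : 0 < a / b := div_pos hapos hb0
  have L1 : -β * e1 / a ≤ t := by
    have := Real.log_le_log (Real.exp_pos _) J1
    rwa [Real.log_exp] at this
  have L2 : -β * e2 / b ≤ -t := by
    have := Real.log_le_log (Real.exp_pos _) J2
    rw [Real.log_exp] at this
    have h3 : Real.log (a / b) = -t := by
      rw [ht, ← Real.log_inv, inv_div]
    rwa [h3] at this
  have M1 : -(a * t) ≤ β * e1 := by
    have := (div_le_iff₀ hapos).mp L1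
    linarith
  have M2 : b * t ≤ β * e2 := by
    have := (div_le_iff₀ hb0).mp L2
    linarith
  have hbma : 0 < b - a := sub_pos.mpr hab
  have M3 : t ≤ β * dd / (b - a) := by
    rw [le_div_iff₀ hbma, hdd']
    nlinarith
  have : b / a ≤ Real.exp (β * dd / (b - a)) := by
    calc b / a = Real.exp t := by rw [ht, Real.exp_log hba]
      _ ≤ Real.exp (β * dd / (b - a)) := Real.exp_le_exp.mpr M3
  calc b = a * (b / a) := by field_simp
    _ ≤ a * Real.exp (β * dd / (b - a)) := mul_le_mul_of_nonneg_left this hapos.le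

variable {n : Type*} [Fintype n] [DecidableEq n]

theorem trace_diag_mul_re (w : n → ℝ) (X : Matrix n n ℂ) :
    (trace (diagonal (fun i => (w i : ℂ)) * X)).re = ∑ i, w i * (X i i).re := by
  simp only [trace, diag_apply, diagonal_mul, Complex.re_sum, Complex.re_ofReal_mul]

/-- Diagonal case. -/
theorem roep_diag (E : n → ℝ) (A : Matrix n n ℂ) (β : ℝ) :
    let D : Matrix n n ℂ := diagonal fun i => (E i : ℂ)
    let ρ : Matrix n n ℂ := diagonal fun i => (Real.exp (-β * E i) : ℂ)
    let a := (trace (ρ * (Aᴴ * A))).re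
    let b := (trace (ρ * (A * Aᴴ))).re
    let dd := (trace (ρ * (Aᴴ * (D * A - A * D) - (D * A - A * D) * Aᴴ))).re
    a < b → b ≤ a * Real.exp (β * dd / (b - a)) := by
  intro D ρ a b dd
  have ha : a = ∑ k : n × n, Real.exp (-β * E k.1) * Complex.normSq (A k.2 k.1) := by
    simp only [a, ρ]
    rw [trace_diag_mul_re, Fintype.sum_prod_type]
    refine Finset.sum_congr rfl fun i _ => ?_
    rw [Matrix.mul_apply, Complex.re_sum, Finset.mul_sum]
    refine Finset.sum_congr rfl fun j _ => ?_
    congr 1
    rw [conjTranspose_apply, Complex.star_def, ← Complex.normSq_eq_conj_mul_self, Complex.ofReal_re]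
  have hb : b = ∑ k : n × n, Real.exp (-β * E k.2) * Complex.normSq (A k.2 k.1) := by
    simp only [b, ρ]
    rw [trace_diag_mul_re, Fintype.sum_prod_type_right]
    refine Finset.sum_congr rfl fun i _ => ?_
    rw [Matrix.mul_apply, Complex.re_sum, Finset.mul_sum]
    refine Finset.sum_congr rfl fun j _ => ?_
    congr 1
    rw [conjTranspose_apply, Complex.star_def, Complex.mul_conj, Complex.ofReal_re]
  have hdd : dd = ∑ k : n × n, (Real.exp (-β * E k.1) - Real.exp (-β * E k.2)) *
      (E k.2 - E k.1) * Complex.normSq (A k.2 k.1) := by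
    have h1 : ∀ i j, (D * A - A * D) i j = ((E i - E j : ℝ) : ℂ) * A i j := by
      intro i j
      simp only [D, Matrix.sub_apply, diagonal_mul, mul_diagonal]
      push_cast; ring
    have h2 : ∀ i, ((Aᴴ * (D * A - A * D) - (D * A - A * D) * Aᴴ) i i).re =
        ∑ j, ((E j - E i) * Complex.normSq (A j i) - (E i - E j) * Complex.normSq (A i j)) := by
      intro i
      rw [Matrix.sub_apply, Matrix.mul_apply, Matrix.mul_apply, ← Finset.sum_sub_distrib,
        Complex.re_sum]
      refine Finset.sum_congr rfl fun j _ => ?_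
      rw [h1, h1, conjTranspose_apply, conjTranspose_apply, Complex.star_def]
      have e1 : (starRingEnd ℂ) (A j i) * (((E j - E i : ℝ) : ℂ) * A j i) =
          (((E j - E i) * Complex.normSq (A j i) : ℝ) : ℂ) := by
        rw [Complex.ofReal_mul, Complex.normSq_eq_conj_mul_self]; ring
      have e2 : ((E i - E j : ℝ) : ℂ) * A i j * (starRingEnd ℂ) (A i j) =
          (((E i - E j) * Complex.normSq (A i j) : ℝ) : ℂ) := by
        rw [Complex.ofReal_mul, ← Complex.mul_conj]; ring
      rw [e1, e2, Complex.sub_re, Complex.ofReal_re, Complex.ofReal_re]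
    simp only [dd, ρ]
    rw [trace_diag_mul_re]
    simp only [h2]
    rw [Fintype.sum_prod_type]
    simp only [Finset.mul_sum, mul_sub, Finset.sum_sub_distrib]
    rw [Finset.sum_comm (f := fun i j => Real.exp (-β * E i) * ((E i - E j) * Complex.normSq (A i j)))]
    rw [← Finset.sum_sub_distrib]
    refine Finset.sum_congr rfl fun i _ => ?_
    rw [← Finset.sum_sub_distrib]
    refine Finset.sum_congr rfl fun j _ => ?_
    ring
  intro hab
  have := roep_core (fun k : n × n => E k.1) (fun k : n × n => E k.2)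
    (fun k : n × n => Complex.normSq (A k.2 k.1)) (fun k => Complex.normSq_nonneg _) β
    (by rw [← ha, ← hb]; exact hab)
  rw [← ha, ← hb, ← hdd] at this
  exact this

theorem exp_smul_hermitian (H : Matrix n n ℂ) (hH : H.IsHermitian) (c : ℝ) :
    NormedSpace.exp ((c : ℂ) • H) =
      (hH.eigenvectorUnitary : Matrix n n ℂ) *
        diagonal (fun i => (Real.exp (c * hH.eigenvalues i) : ℂ)) *
        star (hH.eigenvectorUnitary : Matrix n n ℂ) := by
  have hU1 : (hH.eigenvectorUnitary : Matrix n n ℂ) * star (hH.eigenvectorUnitary : Matrix n n ℂ) = 1 :=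
    Unitary.coe_mul_star_self _
  have hU2 : star (hH.eigenvectorUnitary : Matrix n n ℂ) * (hH.eigenvectorUnitary : Matrix n n ℂ) = 1 :=
    Unitary.coe_star_mul_self _
  have hs : H = (hH.eigenvectorUnitary : Matrix n n ℂ) *
      diagonal (fun i => (hH.eigenvalues i : ℂ)) * star (hH.eigenvectorUnitary : Matrix n n ℂ) := by
    conv_lhs => rw [hH.spectral_theorem, Unitary.conjStarAlgAut_apply]
    rfl
  let Uu : (Matrix n n ℂ)ˣ := ⟨(hH.eigenvectorUnitary : Matrix n n ℂ),
    star (hH.eigenvectorUnitary : Matrix n n ℂ), hU1, hU2⟩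
  have h1 : (c : ℂ) • H = (Uu : Matrix n n ℂ) * diagonal (fun i => ((c * hH.eigenvalues i : ℝ) : ℂ)) *
      ((Uu⁻¹ : (Matrix n n ℂ)ˣ) : Matrix n n ℂ) := by
    conv_lhs => rw [hs]
    have : diagonal (fun i => ((c * hH.eigenvalues i : ℝ) : ℂ)) =
        (c : ℂ) • diagonal (fun i => (hH.eigenvalues i : ℂ)) := by
      ext i j
      by_cases hij : i = j
      · subst hij; simp
      · simp [hij]
    rw [this]
    simp [Uu]
  rw [h1, Matrix.exp_units_conj, Matrix.exp_diagonal]
  congr 2
  ext i j
  by_cases hij : i = j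
  · subst hij
    simp [Pi.coe_exp, Complex.exp_eq_exp_ℂ]
  · simp [hij]

theorem hermitian_eq_conj (H : Matrix n n ℂ) (hH : H.IsHermitian) :
    H = (hH.eigenvectorUnitary : Matrix n n ℂ) *
      diagonal (fun i => (hH.eigenvalues i : ℂ)) * star (hH.eigenvectorUnitary : Matrix n n ℂ) := by
  conv_lhs => rw [hH.spectral_theorem, Unitary.conjStarAlgAut_apply]
  rfl

/-- The energy-entropy balance (Roepstorff) inequality for the unnormalised Gibbs weight
`exp (-β H)` of a Hermitian matrix `H`. -/
theorem roepstorff (H A : Matrix n n ℂ) (hH : H.IsHermitian) (β : ℝ) :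
    let ρ : Matrix n n ℂ := NormedSpace.exp (((-β : ℝ) : ℂ) • H)
    let a := (trace (ρ * (Aᴴ * A))).re
    let b := (trace (ρ * (A * Aᴴ))).re
    let dd := (trace (ρ * (Aᴴ * (H * A - A * H) - (H * A - A * H) * Aᴴ))).re
    a < b → b ≤ a * Real.exp (β * dd / (b - a)) := by
  intro ρ a b dd
  set U : Matrix n n ℂ := (hH.eigenvectorUnitary : Matrix n n ℂ) with hU
  set Us : Matrix n n ℂ := star U with hUs
  have hU1 : U * Us = 1 := Unitary.coe_mul_star_self _
  have hU2 : Us * U = 1 := Unitary.coe_star_mul_self _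
  set D : Matrix n n ℂ := diagonal fun i => (hH.eigenvalues i : ℂ) with hD
  set R : Matrix n n ℂ := diagonal fun i => (Real.exp (-β * hH.eigenvalues i) : ℂ) with hR
  have hHD : H = U * D * Us := hermitian_eq_conj H hH
  have hρ : ρ = U * R * Us := exp_smul_hermitian H hH (-β)
  set A' : Matrix n n ℂ := Us * A * U with hA'
  have hUsH : Us = Uᴴ := Matrix.star_eq_conjTranspose U
  have hA'H : A'ᴴ = Us * Aᴴ * U := by
    rw [hA', conjTranspose_mul, conjTranspose_mul, hUsH, conjTranspose_conjTranspose, Matrix.mul_assoc]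
  have cm : ∀ X Y : Matrix n n ℂ, Us * (X * Y) * U = (Us * X * U) * (Us * Y * U) := by
    intro X Y
    calc Us * (X * Y) * U = Us * X * 1 * Y * U := by simp only [Matrix.mul_assoc, Matrix.one_mul]
      _ = Us * X * (U * Us) * Y * U := by rw [hU1]
      _ = (Us * X * U) * (Us * Y * U) := by simp only [Matrix.mul_assoc]
  have cs : ∀ X Y : Matrix n n ℂ, Us * (X - Y) * U = (Us * X * U) - (Us * Y * U) := by
    intro X Y
    rw [Matrix.mul_sub, Matrix.sub_mul]
  have hDc : Us * H * U = D := by
    rw [hHD]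
    calc Us * (U * D * Us) * U = (Us * U) * D * (Us * U) := by simp only [Matrix.mul_assoc]
      _ = D := by rw [hU2, Matrix.one_mul, Matrix.mul_one]
  have tr : ∀ X : Matrix n n ℂ, trace (ρ * X) = trace (R * (Us * X * U)) := by
    intro X
    rw [hρ]
    calc trace (U * R * Us * X) = trace (U * (R * (Us * X))) := by simp only [Matrix.mul_assoc]
      _ = trace (R * (Us * X) * U) := by rw [Matrix.trace_mul_comm]
      _ = trace (R * (Us * X * U)) := by simp only [Matrix.mul_assoc]
  have e1 : Us * (Aᴴ * A) * U = A'ᴴ * A' := by rw [cm, hA'H]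
  have e2 : Us * (A * Aᴴ) * U = A' * A'ᴴ := by rw [cm, hA'H]
  have e3 : Us * (H * A - A * H) * U = D * A' - A' * D := by
    rw [cs, cm, cm, hDc]
  have e4 : Us * (Aᴴ * (H * A - A * H) - (H * A - A * H) * Aᴴ) * U =
      A'ᴴ * (D * A' - A' * D) - (D * A' - A' * D) * A'ᴴ := by
    rw [cs, cm, cm, e3, hA'H]
  have ha : a = (trace (R * (A'ᴴ * A'))).re := by simp only [a]; rw [tr, e1]
  have hb : b = (trace (R * (A' * A'ᴴ))).re := by simp only [b]; rw [tr, e2]
  have hdd : dd = (trace (R * (A'ᴴ * (D * A' - A' * D) - (D * A' - A' * D) * A'ᴴ))).re := by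
    simp only [dd]; rw [tr, e4]
  rw [ha, hb, hdd]
  exact roep_diag hH.eigenvalues A' β

end Vale.Agent.Lib.P361
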