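import Vale.Agent.Lib.P361.Defs

set_option linter.unusedSectionVars false
set_option linter.unusedSimpArgs false

namespace Vale.Agent.Lib.P361

open Matrix Finset
open scoped ComplexOrder

theorem sum_fin_ite_val {d : ℕ} (n : ℕ) (f : Fin d → ℂ) :
    ∑ j : Fin d, (if (j : ℕ) = n then f j else 0) = if h : n < d then f ⟨n, h⟩ else 0 := by
  by_cases h : n < d
  · rw [dif_pos h, Finset.sum_eq_single (⟨n, h⟩ : Fin d)]
    · simp
    · intro j _ hj
      rw [if_neg]
      intro hjn
      apply hj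
      exact Fin.ext hjn
    · intro hh; exact absurd (Finset.mem_univ _) hh
  · rw [dif_neg h]
    apply Finset.sum_eq_zero
    intro j _
    rw [if_neg]
    intro hjn
    exact h (hjn ▸ j.isLt)

/-- spin value `S = (d-1)/2` -/
noncomputable def Sv (d : ℕ) : ℝ := ((d : ℝ) - 1) / 2

theorem spinMinus_apply (d : ℕ) (j i : Fin d) :
    spinMinus d j i = if (j : ℕ) = (i : ℕ) + 1 then
      ((Real.sqrt ((((i : ℕ) : ℝ) + 1) * ((d : ℝ) - 1 - ((i : ℕ) : ℝ))) : ℝ) : ℂ) else 0 := by
  simp only [spinMinus, conjTranspose_apply, spinPlus]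
  split_ifs <;> simp

theorem fin_sub_nonneg {d : ℕ} (i : Fin d) : (0 : ℝ) ≤ (d : ℝ) - 1 - ((i : ℕ) : ℝ) := by
  have : ((i : ℕ) : ℝ) + 1 ≤ (d : ℝ) := by exact_mod_cast i.isLt
  linarith

theorem spinPlus_mul_spinMinus (d : ℕ) :
    spinPlus d * spinMinus d =
      diagonal fun i : Fin d => (((((i : ℕ) : ℝ) + 1) * ((d : ℝ) - 1 - ((i : ℕ) : ℝ)) : ℝ) : ℂ) := by
  ext i i'
  rw [Matrix.mul_apply]
  simp only [spinPlus, spinMinus_apply, ite_mul, mul_ite, zero_mul, mul_zero]
  rw [sum_fin_ite_val]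
  by_cases hii : i = i'
  · subst hii
    rw [diagonal_apply_eq]
    by_cases h : (i : ℕ) + 1 < d
    · rw [dif_pos h]
      simp only [if_true]
      rw [← Complex.ofReal_mul, Real.mul_self_sqrt]
      exact mul_nonneg (by positivity) (fin_sub_nonneg i)
    · rw [dif_neg h]
      have : ((i : ℕ) : ℝ) + 1 = (d : ℝ) := by
        have h1 : (i : ℕ) + 1 = d := by omega
        exact_mod_cast h1
      have h2 : (d : ℝ) - 1 - ((i : ℕ) : ℝ) = 0 := by linarith
      rw [h2, mul_zero, Complex.ofReal_zero]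
  · rw [diagonal_apply_ne _ hii]
    split_ifs with h1 h2
    · exfalso; apply hii; exact Fin.ext (by simp at h2; omega)
    · rfl
    · rfl

theorem spinMinus_mul_spinPlus (d : ℕ) :
    spinMinus d * spinPlus d =
      diagonal fun j : Fin d => ((((j : ℕ) : ℝ) * ((d : ℝ) - ((j : ℕ) : ℝ)) : ℝ) : ℂ) := by
  ext j j'
  rw [Matrix.mul_apply]
  simp only [spinPlus, spinMinus_apply, ite_mul, mul_ite, zero_mul, mul_zero]
  by_cases hjj : j = j'
  · subst hjj
    rw [diagonal_apply_eq]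
    by_cases h0 : (j : ℕ) = 0
    · rw [Finset.sum_eq_zero]
      · rw [h0]; simp
      · intro i _
        rw [if_neg (by omega)]
    · have hlt : (j : ℕ) - 1 < d := by have := j.isLt; omega
      rw [Finset.sum_eq_single (⟨(j : ℕ) - 1, hlt⟩ : Fin d)]
      · have e : (j : ℕ) = ((⟨(j : ℕ) - 1, hlt⟩ : Fin d) : ℕ) + 1 := by simp; omega
        rw [if_pos e, if_pos e, ← Complex.ofReal_mul, Real.mul_self_sqrt]
        · have e2 : (((⟨(j : ℕ) - 1, hlt⟩ : Fin d) : ℕ) : ℝ) = ((j : ℕ) : ℝ) - 1 := by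
            have : ((j : ℕ) - 1 : ℕ) + 1 = (j : ℕ) := by omega
            have h3 : (((j : ℕ) - 1 : ℕ) : ℝ) + 1 = ((j : ℕ) : ℝ) := by exact_mod_cast this
            simp only
            linarith
          rw [e2]
          congr 1
          ring
        · exact mul_nonneg (by positivity) (fin_sub_nonneg _)
      · intro i _ hi
        rw [if_neg]
        intro hji
        apply hi
        exact Fin.ext (by simp; omega)
      · intro hh; exact absurd (Finset.mem_univ _) hh
  · rw [diagonal_apply_ne _ hjj]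
    apply Finset.sum_eq_zero
    intro i _
    split_ifs with h1 h2
    · exfalso; apply hjj; exact Fin.ext (by omega)
    · rfl
    · rfl

theorem spin_comm_pm (d : ℕ) :
    spinPlus d * (spinPlus d)ᴴ - (spinPlus d)ᴴ * spinPlus d = (2 : ℂ) • spinZ d := by
  have h1 := spinPlus_mul_spinMinus d
  have h2 := spinMinus_mul_spinPlus d
  rw [spinMinus] at h1 h2
  rw [h1, h2, spinZ]
  ext i i'
  by_cases hii : i = i'
  · subst hii
    simp only [Matrix.sub_apply, diagonal_apply_eq, Matrix.smul_apply, smul_eq_mul]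
    push_cast
    ring
  · simp [diagonal_apply_ne _ hii]

theorem spin_comm_zp (d : ℕ) :
    spinZ d * spinPlus d - spinPlus d * spinZ d = spinPlus d := by
  ext i j
  simp only [spinZ, Matrix.sub_apply, diagonal_mul, mul_diagonal, spinPlus]
  split_ifs with h
  · have : ((j : ℕ) : ℝ) = ((i : ℕ) : ℝ) + 1 := by exact_mod_cast h
    rw [this]
    push_cast
    ring
  · simp

theorem spinZ_hermitian (d : ℕ) : (spinZ d).IsHermitian := by
  unfold Matrix.IsHermitian spinZ
  rw [diagonal_conjTranspose]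
  congr 1
  funext i
  simp

theorem spinZ_transpose (d : ℕ) : (spinZ d)ᵀ = spinZ d := by
  unfold spinZ
  rw [diagonal_transpose]

theorem spinPlus_transpose (d : ℕ) : (spinPlus d)ᵀ = (spinPlus d)ᴴ := by
  ext i j
  simp only [transpose_apply, conjTranspose_apply, spinPlus]
  split_ifs <;> simp

/-- `2S (S - S^3) - S^- S^+` is diagonal with nonnegative entries `j (j - 1)`. -/
theorem spin_P1 (d : ℕ) :
    (((2 * Sv d : ℝ) : ℂ) • (((Sv d : ℝ) : ℂ) • (1 : Matrix (Fin d) (Fin d) ℂ) - spinZ d) -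
      (spinPlus d)ᴴ * spinPlus d) =
    diagonal fun j : Fin d => ((((j : ℕ) : ℝ) * (((j : ℕ) : ℝ) - 1) : ℝ) : ℂ) := by
  have h2 := spinMinus_mul_spinPlus d
  rw [spinMinus] at h2
  rw [h2, spinZ, Sv]
  ext i i'
  by_cases hii : i = i'
  · subst hii
    simp only [Matrix.sub_apply, diagonal_apply_eq, Matrix.smul_apply, smul_eq_mul,
      Matrix.one_apply_eq]
    push_cast
    ring
  · simp [diagonal_apply_ne _ hii, Matrix.one_apply_ne hii]

/-- `G = sqrt (S - S^3)` -/
noncomputable def gM (d : ℕ) : Matrix (Fin d) (Fin d) ℂ :=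
  diagonal fun i => ((Real.sqrt ((i : ℕ) : ℝ) : ℝ) : ℂ)

/-- weighted shift `U` with `U^* U = S + S^3`, `G U = S^-` -/
noncomputable def uM (d : ℕ) : Matrix (Fin d) (Fin d) ℂ :=
  fun j i => if (j : ℕ) = (i : ℕ) + 1 then
    ((Real.sqrt ((d : ℝ) - 1 - ((i : ℕ) : ℝ)) : ℝ) : ℂ) else 0

theorem gM_conjTranspose (d : ℕ) : (gM d)ᴴ = gM d := by
  unfold gM
  rw [diagonal_conjTranspose]
  congr 1
  funext i
  simp

theorem gM_mul_gM (d : ℕ) :
    gM d * gM d = ((Sv d : ℝ) : ℂ) • (1 : Matrix (Fin d) (Fin d) ℂ) - spinZ d := by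
  unfold gM spinZ Sv
  rw [diagonal_mul_diagonal]
  ext i i'
  by_cases hii : i = i'
  · subst hii
    simp only [diagonal_apply_eq, Matrix.sub_apply, Matrix.smul_apply, Matrix.one_apply_eq,
      smul_eq_mul]
    rw [← Complex.ofReal_mul, Real.mul_self_sqrt (by positivity)]
    push_cast
    ring
  · simp [diagonal_apply_ne _ hii, Matrix.one_apply_ne hii]

theorem gM_mul_uM (d : ℕ) : gM d * uM d = (spinPlus d)ᴴ := by
  ext j i
  have h := spinMinus_apply d j i
  rw [spinMinus] at h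
  rw [h]
  simp only [gM, uM, diagonal_mul]
  split_ifs with hji
  · rw [← Complex.ofReal_mul]
    congr 1
    have e : ((j : ℕ) : ℝ) = ((i : ℕ) : ℝ) + 1 := by exact_mod_cast hji
    rw [e, ← Real.sqrt_mul (by positivity)]
  · simp

theorem uMH_mul_gM (d : ℕ) : (uM d)ᴴ * gM d = spinPlus d := by
  have h := congrArg conjTranspose (gM_mul_uM d)
  rw [conjTranspose_mul, conjTranspose_conjTranspose, gM_conjTranspose] at h
  exact h

theorem uMH_mul_uM (d : ℕ) :
    (uM d)ᴴ * uM d = ((Sv d : ℝ) : ℂ) • (1 : Matrix (Fin d) (Fin d) ℂ) + spinZ d := by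
  have hrhs : ((Sv d : ℝ) : ℂ) • (1 : Matrix (Fin d) (Fin d) ℂ) + spinZ d =
      diagonal fun i : Fin d => (((d : ℝ) - 1 - ((i : ℕ) : ℝ) : ℝ) : ℂ) := by
    unfold spinZ Sv
    ext i i'
    by_cases hii : i = i'
    · subst hii
      simp only [diagonal_apply_eq, Matrix.add_apply, Matrix.smul_apply, Matrix.one_apply_eq,
        smul_eq_mul]
      push_cast
      ring
    · simp [diagonal_apply_ne _ hii, Matrix.one_apply_ne hii]
  rw [hrhs]
  ext i i'
  rw [Matrix.mul_apply]
  simp only [uM, conjTranspose_apply, apply_ite, star_zero, ite_mul, mul_ite, zero_mul, mul_zero]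
  rw [sum_fin_ite_val]
  by_cases hii : i = i'
  · subst hii
    rw [diagonal_apply_eq]
    by_cases h : (i : ℕ) + 1 < d
    · rw [dif_pos h]
      simp only [if_true]
      have : star ((Real.sqrt ((d : ℝ) - 1 - ((i : ℕ) : ℝ)) : ℝ) : ℂ) =
          ((Real.sqrt ((d : ℝ) - 1 - ((i : ℕ) : ℝ)) : ℝ) : ℂ) := by simp
      rw [this, ← Complex.ofReal_mul, Real.mul_self_sqrt (fin_sub_nonneg i)]
    · rw [dif_neg h]
      have : ((i : ℕ) : ℝ) + 1 = (d : ℝ) := by
        have h1 : (i : ℕ) + 1 = d := by omega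
        exact_mod_cast h1
      have h2 : (d : ℝ) - 1 - ((i : ℕ) : ℝ) = 0 := by linarith
      rw [h2, Complex.ofReal_zero]
  · rw [diagonal_apply_ne _ hii]
    split_ifs with h1 h2
    · exfalso; apply hii; exact Fin.ext (by simp at h2; omega)
    · rfl
    · rfl

end Vale.Agent.Lib.P361
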